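import Crest.Agent.X212.Dec35.Lv
import Crest.Agent.X212.Cay24.Alg
import Crest.Agent.X212.Loc66.Paste
import Crest.Agent.X212.Pj41.Two
import Crest.Agent.X212.Hm83.Poi
import Crest.Agent.X212.Abel74.Gap
import Crest.Agent.X212.Grp76.Md
import Crest.Agent.X212.Std94.Loc
import Crest.Agent.X212.Rsp69.Loc
import Crest.Agent.X212.Cht98.Cov
import Mathlib.Analysis.SpecialFunctions.ImproperIntegrals

-- ▼ part X212/Hm83/Ga
section

/-!
# Row 212, DEC / GA (helper83): gauge transformations between small variations are multipliers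
-/

set_option autoImplicit false
set_option linter.unusedSectionVars false
noncomputable section
open scoped Manifold ContDiff Topology InnerProductSpace
open MeasureTheory Set Function Filter Real

namespace Crest.Agent.X212.Hm83
open An Map77 Sob92 Dec35
open Tmp64 (Eq0)
open Eqv71 (cj)
open Wz78 (adcL)

section alg
variable {α Y Z : Type} [Fintype α] [NormedAddCommGroup Y] [InnerProductSpace ℝ Y]
  [FiniteDimensional ℝ Y] [NormedAddCommGroup Z] [InnerProductSpace ℝ Z] [FiniteDimensional ℝ Z]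

variable (α Y) in
/-- the action on tensors -/
def fmL : CL Y Y →L[ℝ] CL (Fm α Y) (Fm α Y) := LinearMap.toContinuousLinearMap
  { toFun := fun S => tp fun a => S ∘L pj _ a
    map_add' := fun _ _ => ContinuousLinearMap.ext fun _ => fm_ext fun _ => rfl
    map_smul' := fun _ _ => ContinuousLinearMap.ext fun _ => fm_ext fun _ => rfl }

variable (Y Z) in
/-- the action on sums -/
def smL : (CL Y Y × CL Z Z) →L[ℝ] CL (P2 Y Z) (P2 Y Z) := LinearMap.toContinuousLinearMap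
  { toFun := fun s => sm2 s.1 s.2
    map_add' := fun _ _ => ContinuousLinearMap.ext fun _ => ext2 (by simp) (by simp)
    map_smul' := fun _ _ => ContinuousLinearMap.ext fun _ => ext2 (by simp) (by simp) }

theorem fmL_mul (S T : CL Y Y) : fmL α Y (S * T) = fmL α Y S * fmL α Y T :=
  ContinuousLinearMap.ext fun _ => fm_ext fun _ => rfl

theorem smL_mul (s t : CL Y Y × CL Z Z) : smL Y Z (s * t) = smL Y Z s ∘L smL Y Z t :=
  ContinuousLinearMap.ext fun _ => ext2 (by simp [smL]) (by simp [smL])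

theorem le_of_one {S : CL Y Y} (h : ‖S‖ ≤ 1) (y : Y) : ‖S y‖ ≤ ‖y‖ :=
  (S.le_opNorm y).trans (mul_le_of_le_one_left (norm_nonneg _) h)

theorem fmL_le {S : CL Y Y} (h : ‖S‖ ≤ 1) : ‖fmL α Y S‖ ≤ 1 :=
  ContinuousLinearMap.opNorm_le_bound _ zero_le_one fun v => by
    rw [one_mul, PiLp.norm_eq_of_L2, PiLp.norm_eq_of_L2]
    gcongr with a
    exact le_of_one h _

theorem smL_le {S : CL Y Y} {T : CL Z Z} (h : ‖S‖ ≤ 1) (h' : ‖T‖ ≤ 1) : ‖smL Y Z (S, T)‖ ≤ 1 :=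
  ContinuousLinearMap.opNorm_le_bound _ zero_le_one fun v => by
    rw [one_mul, WithLp.prod_norm_eq_of_L2, WithLp.prod_norm_eq_of_L2]
    gcongr
    · exact (congrArg norm (f2_sm2 S T v)).trans_le (le_of_one h _)
    · exact (congrArg norm (s2_sm2 S T v)).trans_le (le_of_one h' _)

variable (α Y Z) in
/-- the action on variations -/
def rC : (CL Y Y × CL Z Z) →L[ℝ] CL (P2 (Fm α Y) Z) (P2 (Fm α Y) Z) :=
  smL _ _ ∘L (fmL α Y).prodMap (.id ℝ _)

variable (α Y Z) in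
/-- the action on the values of the equations -/
def rE : (CL Y Y × CL Z Z) →L[ℝ] CL (P2 Z (Fm α Y)) (P2 Z (Fm α Y)) :=
  smL _ _ ∘L (ContinuousLinearMap.snd ℝ _ _).prod (fmL α Y ∘L .fst ℝ _ _)

theorem rC_apply (s : CL Y Y × CL Z Z) : rC α Y Z s = smL _ _ (fmL α Y s.1, s.2) := rfl

theorem rE_apply (s : CL Y Y × CL Z Z) : rE α Y Z s = smL _ _ (s.2, fmL α Y s.1) := rfl

theorem rC_mul (s t : CL Y Y × CL Z Z) : rC α Y Z (s * t) = rC α Y Z s ∘L rC α Y Z t := by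
  simp only [rC_apply, ← smL_mul, Prod.fst_mul, Prod.snd_mul, fmL_mul, Prod.mk_mul_mk]

theorem rE_mul (s t : CL Y Y × CL Z Z) : rE α Y Z (s * t) = rE α Y Z s ∘L rE α Y Z t := by
  simp only [rE_apply, ← smL_mul, Prod.fst_mul, Prod.snd_mul, fmL_mul, Prod.mk_mul_mk]

theorem rC_le {S : CL Y Y} {T : CL Z Z} (h : ‖S‖ ≤ 1) (h' : ‖T‖ ≤ 1) : ‖rC α Y Z (S, T)‖ ≤ 1 :=
  smL_le (fmL_le h) h'

theorem rE_le {S : CL Y Y} {T : CL Z Z} (h : ‖S‖ ≤ 1) (h' : ‖T‖ ≤ 1) : ‖rE α Y Z (S, T)‖ ≤ 1 :=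
  smL_le h' (fmL_le h)

theorem norm_cj {κ : Type} [Fintype κ] [DecidableEq κ] {u p q : En κ} (h : Pj41.CIso u p q) :
    ‖cj u‖ ≤ 1 := by
  have e : Pj41.ad (cj u) = cj (trn u) := Pj41.ad_eq fun w v => by
    rw [Eqv71.inner_cj, Eqv71.trn_trn]
  refine Bki64.norm_iso (p := cj p) (q := cj q) ⟨?_, ?_, ?_⟩ <;> ext1 ξ
  · rw [e, ContinuousLinearMap.comp_apply, Eqv71.cj_cj, ← Pj41.ad_trn, h.src]
  · rw [e, ContinuousLinearMap.comp_apply, Eqv71.cj_cj, ← Pj41.ad_trn, h.tgt]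
  · rw [ContinuousLinearMap.comp_apply, Eqv71.cj_cj, h.idem]

end alg

variable {E : Type} [NormedAddCommGroup E] [NormedSpace ℝ E] [FiniteDimensional ℝ E]
  [MeasurableSpace E] [BorelSpace E]
  {HM : Type} [TopologicalSpace HM] {I : ModelWithCorners ℝ E HM} [I.Boundaryless]
  {M : Type} [TopologicalSpace M] [ChartedSpace HM M] [IsManifold I ∞ M] [MeasurableSpace M]
  [T2Space M] [BorelSpace M] [SecondCountableTopology M]
  {ι : Type} [Fintype ι] {lam : Type} [Fintype lam]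
  {B : Base M ι lam} {G : Geo I M ι lam} {c : Cfg M ι lam 0}

theorem ga_rep (b : Bs B G c) {k : ℕ} (hk : 7 ≤ k) (C0 : ℝ) {X : Type} [NormedAddCommGroup X]
    [InnerProductSpace ℝ X] [FiniteDimensional ℝ X]
    (Φ : (CL c.m.A c.m.A × En (Fin c.m.N)) →L[ℝ] X →L[ℝ] X) (mul : ∀ s t, Φ (s * t) = Φ s ∘L Φ t)
    (nm : ∀ s t, ‖s‖ ≤ 1 → ‖t‖ ≤ 1 → ‖Φ (s, t)‖ ≤ 1) :
    ∃ K ≥ 0, ∀ (a u : M → Cv c) (h : M → En (Fin c.m.N)), G.F.Cb a → Tg B c a → G.F.CB k a C0 →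
      Fl G.F.toPre u → Tg B c u → G.F.nrm k u ≤ 1 → Eq0 G.F (cf c a) (cf c u) univ h →
      G.F.Cb (fun x => Φ (cj (h x), h x)) ∧ ∀ j ≤ k + 1, ∀ w : M → X, Fl G.F.toPre w →
        G.F.nrm j (fun x => Φ (cj (h x), h x) (w x)) ≤ K * G.F.nrm j w := by
  obtain ⟨C, hC⟩ := b.tame
  choose D hD using b.cW
  let L : En (Fin c.m.N) →L[ℝ] CL c.m.A c.m.A × En (Fin c.m.N) := adcL.prod (.id ℝ _)
  have p : ∀ a : ι, 0 ≤ ‖(oa a : CL (Cv c) _)‖ * |C0| := fun a => by positivity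
  obtain ⟨K, k0, hK⟩ := hm G.F C hC (Cv c) X X (fun a => (Φ ∘L L) ∘L oa a) k hk
    (‖Φ ∘L L‖ * ∑ a, (|D a k| + ‖(oa a : CL (Cv c) _)‖ * |C0|))
  refine ⟨K, k0, fun a u h ca ta ba fu tu nu H => ?_⟩
  have sa := ca.choose_spec.1
  have sh : ∀ x, Wz78.SA I h x := fun x => H.iso.su x trivial
  have le : ∀ e : ι, |D e k| + ‖(oa e : CL (Cv c) _)‖ * |C0| ≤
      ∑ a, (|D a k| + ‖(oa a : CL (Cv c) _)‖ * |C0|) := fun e =>
    Finset.single_le_sum (f := fun a => |D a k| + ‖(oa a : CL (Cv c) _)‖ * |C0|)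
      (fun a _ => add_nonneg (abs_nonneg _) (p a)) (Finset.mem_univ e)
  have sk : ∀ {v : M → Cv c}, Tg B c v → ∀ x e, Skw (c.W e x + oa e (v x)) := fun tv x e v w => by
    rw [add_apply, add_apply, inner_add_left, inner_add_right, b.adm.conn.sk e x,
      oa_apply, Wz78.g_skw ((Cay24.tg_iff.1 tv).1 x e), neg_add]
  refine hK _ (fun e x => (Φ ∘L L) (c.W e x + oa e (a x))) (fun e x => (Φ ∘L L) (c.W e x)) u
    (fun x => Wz78.SA.clm Φ ((Eqv71.sa_cj (sh x)).prodMk_space (sh x)))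
    (fun x => nm _ _ (norm_cj (H.iso.iso x trivial)) (Bki64.norm_iso (H.iso.iso x trivial)))
    (fun e => ⟨Cb_clm _ (Cb_add ⟨_, hD e⟩ (Cb_clm _ ca)), ?_⟩) (fun e => ⟨Cb_clm _ ⟨_, hD e⟩, ?_⟩)
    fu nu fun e x => ?_
  · have s2 : Sm I fun x => oa e (a x) := (oa e).contMDiff.comp sa
    exact CB_mono (CB_clm _ ((hD e).1.add s2) (CB_add (hD e).1 s2 (CB_abs ((hD e).2 k))
      (CB_clm _ sa (CB_abs ba)))) (mul_le_mul_of_nonneg_left (le e) (norm_nonneg _))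
  · exact CB_mono (CB_clm _ (hD e).1 (CB_abs ((hD e).2 k)))
      (mul_le_mul_of_nonneg_left ((le_add_of_nonneg_right (p e)).trans (le e)) (norm_nonneg _))
  · have i1 : Eqv71.Itw I G.F.e (fun e x => c.W e x + oa e (a x)) (fun e x => c.W e x + oa e (u x))
        h x := H.itw trivial
    have i2 := i1.cj (sh x) (sk ta x) (sk tu x) e
    have s := (Eqv71.sa_cj (sh x)).prodMk_space (sh x)
    have d1 : dv I (G.F.e e) (fun x => cj (h x)) x = (dv I (G.F.e e) (fun x => (cj (h x), h x)) x).1 :=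
      dv_clm (.fst ℝ (CL c.m.A c.m.A) (En (Fin c.m.N))) (Wz78.SA.md s)
    have d2 : dv I (G.F.e e) h x = (dv I (G.F.e e) (fun x => (cj (h x), h x)) x).2 :=
      dv_clm (.snd ℝ (CL c.m.A c.m.A) (En (Fin c.m.N))) (Wz78.SA.md s)
    have d : dv I (G.F.e e) (fun x => (cj (h x), h x)) x =
        (cj (h x), h x) * L (c.W e x + oa e (a x)) - L (c.W e x + oa e (u x)) * (cj (h x), h x) :=
      Prod.ext (d1.symm.trans (eq_sub_of_add_eq i2)) (d2.symm.trans (eq_sub_of_add_eq (i1 e)))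
    rw [Pre.D_def, dv_clm Φ (Wz78.SA.md s), d, map_sub, mul, mul]
    simp only [ContinuousLinearMap.comp_apply, map_add]

theorem ga_tr (b : Bs B G c) {a u w : M → Cv c} {h : M → En (Fin c.m.N)} (tw : Tg B c w)
    (H : Eq0 G.F (cf c a) (cf c u) univ h) : Tg B c (fun x => act (h x) (w x)) ∧
      Eq0 G.F (cf c (a + w)) (cf c (u + fun x => act (h x) (w x))) univ h := by
  obtain ⟨t1, t2, t3⟩ := Cay24.tg_iff.1 tw
  have o := Pj41.okOn_univ.2 b.adm.ok
  have i : Pj41.Iso0 I c.m c.m univ h := H.iso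
  have e1 : ∀ x e, fa (act (h x) (w x)) e = cj (h x) (fa (w x) e) := fun x e => by simp [act]
  have e2 : ∀ x, fp (act (ι := ι) (h x) (w x)) = h x (fp (w x)) := fun x => by simp [act]
  refine ⟨Cay24.tg_iff.2 ⟨fun x e => ?_, fun x e => ?_, fun x => ?_⟩, H.iso, fun x _ e => ?_,
    fun x _ => ?_, rfl⟩
  · rw [e1]; exact Loc66.cj_mem i o o trivial (t1 x e)
  · simp only [e1, ← map_smul, ← map_sum, t2]
  · rw [e2, i.pp trivial, t3]
  · have p : G.F.D e h x + (c.W e x + oa e (u x)) * h x - h x * (c.W e x + oa e (a x)) = 0 :=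
      H.par x trivial e
    have q : oa e (act (h x) (w x)) * h x = h x * oa e (w x) := by
      have q1 : trn (h x) ∘L h x = c.m.p x := Pj41.ad_trn (h x) ▸ (i.iso x trivial).src
      have q2 : opL (fa (w x) e) ∘L c.m.p x = opL (fa (w x) e) := Wz78.g_p' b.adm.ok (t1 x e)
      rw [oa_apply, e1, Eqv71.opL_cj, oa_apply, ContinuousLinearMap.mul_def,
        ContinuousLinearMap.mul_def, ContinuousLinearMap.comp_assoc, ContinuousLinearMap.comp_assoc,
        q1, q2]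
    change G.F.D e h x + (c.W e x + oa e (u x + act (h x) (w x))) * h x
      - h x * (c.W e x + oa e (a x + w x)) = 0
    rw [← p, map_add, map_add, ← add_assoc, ← add_assoc, add_mul, mul_add, q]
    abel
  · have p : c.Φ x + fp (u x) = h x (c.Φ x + fp (a x)) := H.Φ x trivial
    change c.Φ x + fp (u x + act (h x) (w x)) = h x (c.Φ x + fp (a x + w x))
    rw [map_add, map_add fp, ← add_assoc, ← add_assoc, p, e2, ← map_add]

/-- **LEAF GA** -/
theorem ga : GaStmt I M ι lam := by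
  intro B G c b k hk C0
  obtain ⟨K, k0, hK⟩ := ga_rep b hk C0 (rC ι c.m.A c.m.V) rC_mul fun _ _ => rC_le
  obtain ⟨K', k0', hK'⟩ := ga_rep b hk C0 (rE (ι × ι) c.m.A c.m.V) rE_mul fun _ _ => rE_le
  refine ⟨K + K', by positivity, fun a u h ca ta ba fu tu nu H => ?_⟩
  obtain ⟨h1, h2⟩ := hK a u h ca ta ba fu tu nu H
  obtain ⟨h3, h4⟩ := hK' a u h ca ta ba fu tu nu H
  refine ⟨h1, h3, fun j hj w hw => (h2 j hj w hw).trans ?_, fun j hj w hw => (h4 j hj w hw).trans ?_,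
    fun w _ tw => ga_tr b tw H⟩
  · exact mul_le_mul_of_nonneg_right (by linarith) (nrm_nonneg _ _)
  · exact mul_le_mul_of_nonneg_right (by linarith) (nrm_nonneg _ _)

end Crest.Agent.X212.Hm83
end
end

-- ▼ part X212/Hm83/Ph
section

/-!
# Row 212, DEC-PH (helper83): the row measures the phase
-/

set_option autoImplicit false
set_option linter.unusedSectionVars false
noncomputable section
open scoped Manifold ContDiff Topology InnerProductSpace
open MeasureTheory Set Function Filter Real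

namespace Crest.Agent.X212.Hm83
open An An.Pre Sob92 Dec35 Map77 Nd18 Cyf70
open Wz78 (nab Skew opL_hsL hsL_opL norm_opL_apply)
open Tmp64 (Eq0)

theorem abs_sin_sub (θ : ℝ) : |sin θ - θ| ≤ 2 * θ ^ 2 := by
  have h1 := abs_sub_sin_le θ
  have h2 := (abs_sub θ (sin θ)).trans (add_le_add le_rfl abs_sin_le_abs)
  have h3 := abs_nonneg θ
  rw [abs_sub_comm, ← sq_abs]
  rcases le_total |θ| 1 with h | h <;> nlinarith [mul_nonneg h3 h3]

theorem nrm_opL {K : Type} [Fintype K] [DecidableEq K] (ξ : An.HS K) : ‖opL ξ‖ ≤ ‖ξ‖ :=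
  ContinuousLinearMap.opNorm_le_bound _ (norm_nonneg _) (norm_opL_apply ξ)

theorem alg1 {X Z A P t S Q : ℝ} (e1 : X ≤ S * A ^ 2) (e3 : Z ≤ (P + t * Q) ^ 2) (hS : 0 ≤ S) :
    X + Z ≤ (S + 2 + 2 * Q ^ 2) * (A ^ 2 + P ^ 2 + t ^ 2) := by
  nlinarith [sq_nonneg (P - t * Q), mul_nonneg hS (sq_nonneg P), mul_nonneg hS (sq_nonneg t), sq_nonneg A,
    sq_nonneg t, sq_nonneg (Q * A), sq_nonneg (Q * P)]

theorem alg2 {X Z k b t R : ℝ} (e2 : X ≤ (R + R * R * R) * (k * b)) (e3 : Z ≤ t ^ 2 * (R * R) +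
    2 * t ^ 2 * (R * (R * R)) + t * (R * (k * R)) + k ^ 2 * R) (R0 : 0 ≤ R) :
    X + Z ≤ (R + R * R * R + (R * R + 2 * (R * (R * R))) + R * R + R) * (b ^ 2 + k ^ 2 + t ^ 2) := by
  have a1 : k * b ≤ b ^ 2 + k ^ 2 + t ^ 2 := by nlinarith [sq_nonneg (k - b), sq_nonneg k, sq_nonneg b, sq_nonneg t]
  have a2 : t * k ≤ b ^ 2 + k ^ 2 + t ^ 2 := by nlinarith [sq_nonneg (k - t), sq_nonneg k, sq_nonneg b, sq_nonneg t]
  have a3 : t ^ 2 ≤ b ^ 2 + k ^ 2 + t ^ 2 := by nlinarith [sq_nonneg k, sq_nonneg b]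
  have a4 : k ^ 2 ≤ b ^ 2 + k ^ 2 + t ^ 2 := by nlinarith [sq_nonneg t, sq_nonneg b]
  nlinarith [mul_le_mul_of_nonneg_left a1 (by positivity : 0 ≤ R + R * R * R),
    mul_le_mul_of_nonneg_left a2 (by positivity : 0 ≤ R * R), mul_le_mul_of_nonneg_left a4 R0,
    mul_le_mul_of_nonneg_left a3 (by positivity : 0 ≤ R * R + 2 * (R * (R * R)))]

section gen
variable {E : Type} [NormedAddCommGroup E] [NormedSpace ℝ E] [FiniteDimensional ℝ E]
  [MeasurableSpace E] [BorelSpace E]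
  {HM : Type} [TopologicalSpace HM] {I : ModelWithCorners ℝ E HM} [I.Boundaryless]
  {M : Type} [TopologicalSpace M] [ChartedSpace HM M] [IsManifold I ∞ M] [MeasurableSpace M]
  [T2Space M] [BorelSpace M] [SecondCountableTopology M] {ι : Type} [Fintype ι]
  {lam : Type} [Fintype lam] {B : Base M ι lam} {G : Geo I M ι lam} {c : Cfg M ι lam 0}
  {a b : M → Cv c} {h : M → En (Fin c.m.N)} {x : M} {θ R : ℝ}

theorem par_const {V : Type} [NormedAddCommGroup V] [InnerProductSpace ℝ V] [PreconnectedSpace M]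
    {F : Fr I M ι} {A : ι → M → V →L[ℝ] V} (hs : ∀ a x, Skew (A a x)) {k : M → V} (hk : Sm I k)
    (h1 : ∀ a x, nab I F.e A a k x = 0) : ∃ r, ∀ x, ⟪k x, k x⟫_ℝ = r := by
  refine (Abel74.const_of_D (F := F) isOpen_univ isPreconnected_univ (fun x _ => Ell97.sm_inner hk hk x)
    fun a x _ => ?_).imp fun r hr x => hr x trivial
  rw [Ell97.D_inner F.toPre a hk hk, show F.D a k x = _ from eq_neg_of_add_eq_zero_left (h1 a x),
    real_inner_comm _ (k x), inner_neg_left, (hs a x).self]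
  simp

variable (c h) in
/-- the distance from the identity -/
def kp (x : M) : c.m.A := hsL (h x - c.m.p x)

variable (c h) in
/-- the part in the Lie algebra -/
def xi (x : M) : c.m.A := kp c h x + ((1 / 32 : ℝ) * ⟪kp c h x, kp c h x⟫_ℝ) • hsL (c.m.p x)

variable (hB : B.OK I) (hc : c.Adm B G)
include hc

theorem p_Φ (x : M) : c.m.p x (c.Φ x) = c.Φ x := by
  rw [← hc.pos x, ← mul_apply_eq_comp, Wz78.p_pp hc.ok]

theorem kp_Φ (x : M) : opL (kp c h x) (c.Φ x) = h x (c.Φ x) - c.Φ x := by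
  rw [kp, opL_hsL, sub_apply, p_Φ hc]

include hB in
theorem ker_pt {k : c.m.A} (h1 : Grp76.ph c.m x k = k) (h2 : opL k (c.Φ x) = 0) (h3 : c.Φ x ≠ 0) :
    ⟪k, k⟫_ℝ = 0 := by
  have := congrArg (· (c.Φ x)) (Std94.itx_norm hB (Std94.pmx hc.ok x) (Std94.pmx hc.ok x)
    ((Grp76.ph_iff hB hc.ok k).1 h1)).1
  simp only [ContinuousLinearMap.comp_apply, h2, map_zero, smul_apply, p_Φ hc, ← Std94.inner_hs'] at this
  linarith [(smul_eq_zero.1 this.symm).resolve_right h3]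

include hB in
theorem sm_ph : Sm I (Grp76.ph c.m) :=
  (Std94.sm_pg hB hc.ok).add ((contMDiff_const (I' := 𝓘(ℝ, ℝ)) (c := (1 / 16 : ℝ))).smul (smooth_bil
    (ContinuousLinearMap.smulRightL ℝ c.m.A c.m.A) ((innerSL ℝ).contMDiff.comp (hsL.contMDiff.comp hc.ok.sp))
    (hsL.contMDiff.comp hc.ok.sp)))

variable (hh : Eq0 G.F (cf c a) (cf c b) univ h)
include hh

theorem sm_kp : Sm I (kp c h) := hsL.contMDiff.comp (ContMDiff.sub (fun x => hh.iso.su x trivial) hc.ok.sp)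

theorem sm_xi : Sm I (xi c h) :=
  (sm_kp hc hh).add ((contMDiff_const.mul (Ell97.sm_inner (sm_kp hc hh) (sm_kp hc hh))).smul
    (hsL.contMDiff.comp hc.ok.sp))

theorem phi_eq (ha : a x = rot c (fun _ => θ) 0 x) :
    fp (b x) = cos θ • h x (c.Φ x) + sin θ • c.m.J (h x (c.Φ x)) - c.Φ x := by
  have h1 : c.Φ x + fp (b x) = h x (c.Φ x + fp (a x)) := hh.Φ x trivial
  have h2 : c.m.J (h x (c.Φ x)) = h x (c.m.J (c.Φ x)) := congrArg (· (c.Φ x)) (hh.iso.J x trivial)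
  rw [eq_sub_iff_add_eq', h1, ha, h2]
  simp [rot, Dec35.ph]

theorem nab_hs {T : M → En (Fin c.m.N)} (hT : Sm I T) (i : ι) :
    nab I G.F.e (c.m.adW c.W) i (fun x => hsL (T x)) x =
      hsL (G.F.D i T x + (c.W i x * T x - T x * c.W i x)) := by
  rw [nab, dv_clm hsL (hT.mdifferentiableAt (by simp)), map_add, Md.adW, Wz78.adc_apply, opL_hsL]
  rfl

theorem nab_kp (ha : fa (a x) = 0) (i : ι) :
    nab I G.F.e (c.m.adW c.W) i (kp c h) x = -hsL (opL (fa (b x) i) * h x) := by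
  have h1 : G.F.D i h x + (c.W i x + opL (fa (b x) i)) * h x - h x * (c.W i x + opL (fa (a x) i)) = 0 :=
    hh.par x trivial i
  have h2 : G.F.D i c.m.p x + _ = 0 := hc.conn.cc.par i x
  have s : Sm I h := fun x => hh.iso.su x trivial
  refine (nab_hs hc hh (s.sub hc.ok.sp) i).trans ?_
  rw [← map_neg, show G.F.D i (fun x => h x - c.m.p x) x = G.F.D i h x - G.F.D i c.m.p x from
    dv_sub (s.mdifferentiableAt (by simp)) (hc.ok.sp.mdifferentiableAt (by simp)),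
    eq_neg_of_add_eq_zero_left h2]
  rw [ha, PiLp.zero_apply, map_zero, add_zero] at h1
  congr 1
  rw [← sub_eq_zero, ← h1]
  noncomm_ring

include hB

theorem aut (x : M) : xi c h x ∈ c.m.gS x ∧ ‖kp c h x‖ ≤ 8 ∧ Grp76.ph c.m x (kp c h x) = kp c h x := by
  have H := Std94.pmx hc.ok x
  obtain ⟨t, ξ, hξ, e, n⟩ := Std94.iso0_aut (m := c.m) hB H hh.iso (mem_univ x)
  have e1 : h x - c.m.p x = (t - 1) • c.m.p x + opL ξ := by rw [e]; module
  have e2 : ⟪kp c h x, kp c h x⟫_ℝ = 32 * (1 - t) := by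
    rw [kp, e1, Wz78.inner_trn, Std94.trn_comm H _ hξ, (Std94.comm_norm hB H _ hξ).1, map_smul, Wz78.trE_eq,
      H.prk, smul_eq_mul]
    linarith
  refine ⟨?_, ?_, (Grp76.ph_iff hB hc.ok _).2 ((Std94.itx_iff hB H _).2 ⟨_, _, hξ, (opL_hsL _).trans e1⟩)⟩
  · rw [xi, e2, kp, e1, map_add, map_smul, hsL_opL]
    convert hξ using 1
    module
  · rw [real_inner_self_eq_norm_sq] at e2
    nlinarith [norm_nonneg (kp c h x), sq_nonneg ‖ξ‖, sq_nonneg (t + 1)]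

omit hB in
theorem nab_xi (hb : Tg B c b) (ha : fa (a x) = 0) (i : ι) :
    fa (b x) i + nab I G.F.e (c.m.adW c.W) i (xi c h) x = -hsL (opL (fa (b x) i) * opL (kp c h x)) +
      ((1 / 16 : ℝ) * ⟪nab I G.F.e (c.m.adW c.W) i (kp c h) x, kp c h x⟫_ℝ) • hsL (c.m.p x) := by
  have s := sm_kp hc hh
  have s2 := Ell97.sm_inner s s
  have m : fa (b x) i ∈ c.m.gS x := by
    have : c.m.p1 B x (fa (b x)) = fa (b x) := (f2_ps _ _).symm.trans (congrArg fa (hb x))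
    rw [← this, Md.p1, Wz78.idx_apply]
    exact Submodule.sum_mem _ fun _ _ => Submodule.smul_mem _ _ (Wz78.pg_mem _ _)
  have e1 := (nab_hs (x := x) hc hh hc.ok.sp i).trans ((congrArg hsL (hc.conn.cc.par i x)).trans (map_zero _))
  have e2 : dv I (G.F.e i) (fun y => (1 / 32 : ℝ) * ⟪kp c h y, kp c h y⟫_ℝ) x =
      (1 / 16 : ℝ) * ⟪nab I G.F.e (c.m.adW c.W) i (kp c h) x, kp c h x⟫_ℝ := by
    have := Wz78.Skew.self (Wz78.adc_skw (hc.conn.sk i x)) (kp c h x)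
    refine (dv_const_smul (1 / 32 : ℝ) (s2.mdifferentiableAt (by simp))).trans ?_
    rw [← Pre.D_def, Ell97.D_inner G.F.toPre i s s, nab, inner_add_left, Md.adW, this, real_inner_comm (G.F.D i _ x)]
    simp only [Pre.D_def, smul_eq_mul]
    ring
  have s3 : Sm I fun y => (1 / 32 : ℝ) * ⟪kp c h y, kp c h y⟫_ℝ := contMDiff_const.mul s2
  have s4 : Sm I fun y => hsL (c.m.p y) := hsL.contMDiff.comp hc.ok.sp
  have s5 : Sm I fun y => ((1 / 32 : ℝ) * ⟪kp c h y, kp c h y⟫_ℝ) • hsL (c.m.p y) := s3.smul s4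
  rw [show xi c h = fun y => kp c h y + _ • _ from rfl, Wz78.nab_add i (s x) (s5 x), Wz78.nab_smul i (s3 x) (s4 x),
    e1, e2, smul_zero, add_zero, ← add_assoc]
  congr 1
  rw [nab_kp hc hh ha, kp, opL_hsL, mul_sub, Wz78.g_p' hc.ok m, map_sub, hsL_opL]
  abel

variable (h1 : ‖(hsL : CL (En (Fin c.m.N)) c.m.A)‖ ≤ R) (h2 : ‖c.m.J‖ ≤ R) (h3 : ‖c.m.p x‖ + 8 ≤ R)
  (h4 : ‖hsL (c.m.p x)‖ ≤ R) (h5 : ‖c.Φ x‖ ≤ R) (ha : a x = rot c (fun _ => θ) 0 x)
include h1 h2 h3 h4 h5 ha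

theorem est0 : ‖h x (c.Φ x)‖ ≤ R * R ∧ ‖c.m.J (h x (c.Φ x))‖ ≤ R * (R * R) ∧
    ∀ i, ‖nab I G.F.e (c.m.adW c.W) i (kp c h) x‖ ≤ R * R * ‖fa (b x) i‖ := by
  have R0 := (norm_nonneg _).trans h2
  have k1 : ‖h x‖ ≤ R := by
    rw [← add_sub_cancel (c.m.p x) (h x), ← opL_hsL (h x - _)]
    exact (norm_add_le _ _).trans ((add_le_add le_rfl ((nrm_opL _).trans (aut hB hc hh x).2.1)).trans h3)
  have k2 := (h x).le_of_opNorm_le_of_le k1 h5
  refine ⟨k2, c.m.J.le_of_opNorm_le_of_le h2 k2, fun i => ?_⟩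
  rw [nab_kp hc hh (by simp [ha, rot]), norm_neg, mul_assoc, mul_comm R ‖_‖]
  exact hsL.le_of_opNorm_le_of_le h1 ((norm_mul_le _ _).trans
    (mul_le_mul (nrm_opL _) k1 (norm_nonneg _) (norm_nonneg _)))

theorem est1 : ∑ i, ‖nab I G.F.e (c.m.adW c.W) i (kp c h) x‖ ^ 2 + ‖opL (kp c h x) (c.Φ x)‖ ^ 2 ≤
    ((R * R) ^ 2 + 2 + 2 * (R * R + R * (R * R)) ^ 2) * (‖b x‖ ^ 2 + θ ^ 2) := by
  obtain ⟨k1, k2, k3⟩ := est0 hB hc hh h1 h2 h3 h4 h5 ha
  have e1 := Finset.sum_le_sum fun i (_ : i ∈ Finset.univ) => pow_le_pow_left₀ (norm_nonneg _) (k3 i) 2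
  simp only [mul_pow (R * R), ← Finset.mul_sum, ← PiLp.norm_sq_eq_of_L2] at e1
  have e2 : ‖opL (kp c h x) (c.Φ x)‖ ≤ ‖fp (b x)‖ + |θ| * (R * R + R * (R * R)) := by
    rw [show opL (kp c h x) (c.Φ x) = fp (b x) - ((cos θ - cos 0) • h x (c.Φ x) + sin θ • c.m.J (h x (c.Φ x))) by
      rw [kp_Φ hc, phi_eq hc hh ha, cos_zero]; module, mul_add]
    refine (norm_sub_le _ _).trans (add_le_add le_rfl ((norm_add_le _ _).trans ?_))
    rw [norm_smul, norm_smul]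
    exact add_le_add (mul_le_mul ((abs_cos_sub_cos_le _ _).trans_eq (by rw [sub_zero])) k1 (norm_nonneg _)
      (abs_nonneg _)) (mul_le_mul abs_sin_le_abs k2 (norm_nonneg _) (abs_nonneg _))
  have e3 := pow_le_pow_left₀ (norm_nonneg _) e2 2
  rw [sq2 (b x), ← sq_abs θ]
  exact alg1 e1 e3 (sq_nonneg _)

theorem est2 (hb : Tg B c b) : ‖b x - dg G.F c 1 (xi c h) x - i2 _ _ (θ • c.m.J (c.Φ x))‖ ≤
    (R + R * R * R + (R * R + 2 * (R * (R * R))) + R * R + R) * (‖b x‖ ^ 2 + ‖kp c h x‖ ^ 2 + θ ^ 2) := by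
  obtain ⟨k1, k2, k3⟩ := est0 hB hc hh h1 h2 h3 h4 h5 ha
  have R0 := (norm_nonneg _).trans h2
  have n1 := norm_nonneg (kp c h x)
  set w := b x - dg G.F c 1 (xi c h) x - i2 _ _ (θ • c.m.J (c.Φ x))
  have e1 : ∀ i, ‖fa w i‖ ≤ (R + R * R * R) * ‖kp c h x‖ * ‖fa (b x) i‖ := fun i => by
    rw [show fa w i = _ from Eq.trans (by simp [w, fa_dg]) (nab_xi (x := x) hc hh hb (by simp [ha, rot]) i)]
    have a1 := hsL.le_of_opNorm_le_of_le h1 ((norm_mul_le _ _).trans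
      (mul_le_mul (nrm_opL (fa (b x) i)) (nrm_opL (kp c h x)) (norm_nonneg _) (norm_nonneg _)))
    have a2 := mul_le_mul ((abs_real_inner_le_norm _ (kp c h x)).trans (mul_le_mul_of_nonneg_right (k3 i) n1))
      h4 (norm_nonneg _) (by positivity)
    refine (norm_add_le _ _).trans ?_
    rw [norm_neg, norm_smul, norm_mul, Real.norm_eq_abs, Real.norm_eq_abs, abs_of_pos (by norm_num), mul_assoc]
    have a3 := mul_nonneg (abs_nonneg ⟪nab I G.F.e (c.m.adW c.W) i (kp c h) x, kp c h x⟫_ℝ)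
      (norm_nonneg (hsL (c.m.p x)))
    generalize |⟪nab I G.F.e (c.m.adW c.W) i (kp c h) x, kp c h x⟫_ℝ| * ‖hsL (c.m.p x)‖ = Z at a2 a3 ⊢
    linarith
  have e2 : ‖fa w‖ ≤ (R + R * R * R) * (‖kp c h x‖ * ‖b x‖) := by
    refine abs_le_of_sq_le_sq' ?_ (by positivity) |>.2
    rw [PiLp.norm_sq_eq_of_L2, ← mul_assoc, mul_pow, sq2 (b x)]
    refine (Finset.sum_le_sum fun i _ => pow_le_pow_left₀ (norm_nonneg _) (e1 i) 2).trans ?_
    simp only [mul_pow (_ * ‖kp c h x‖), ← Finset.mul_sum, ← PiLp.norm_sq_eq_of_L2]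
    exact mul_le_mul_of_nonneg_left (le_add_of_nonneg_right (sq_nonneg _)) (sq_nonneg _)
  have e3 : ‖fp w‖ ≤ θ ^ 2 * (R * R) + 2 * θ ^ 2 * (R * (R * R)) + |θ| * (R * (‖kp c h x‖ * R)) +
      ‖kp c h x‖ ^ 2 * R := by
    rw [show fp w = (cos θ - 1) • h x (c.Φ x) + (sin θ - θ) • c.m.J (h x (c.Φ x)) +
        θ • c.m.J (opL (kp c h x) (c.Φ x)) - ((1 / 32 : ℝ) * ‖kp c h x‖ ^ 2) • c.Φ x by
      simp only [w, map_sub, fp_dg, s2_i2, phi_eq hc hh ha, xi, map_add, map_smul, opL_hsL, add_apply,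
        smul_apply, kp_Φ hc, p_Φ hc, real_inner_self_eq_norm_sq]
      module]
    refine (norm_sub_le _ _).trans (add_le_add ((norm_add₃_le).trans ?_) ?_) <;> simp only [norm_smul]
    · refine add_le_add (add_le_add (mul_le_mul (abs_le.2 ⟨?_, ?_⟩) k1 (norm_nonneg _) (sq_nonneg _))
        (mul_le_mul (abs_sin_sub θ) k2 (norm_nonneg _) (by positivity))) (mul_le_mul_of_nonneg_left
          (c.m.J.le_of_opNorm_le_of_le h2 ((opL _).le_of_opNorm_le_of_le (nrm_opL _) h5)) (abs_nonneg _))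
      · nlinarith [one_sub_sq_div_two_le_cos (x := θ)]
      · nlinarith [cos_le_one θ]
    · refine mul_le_mul ?_ h5 (norm_nonneg _) (sq_nonneg _)
      rw [Real.norm_of_nonneg (by positivity)]
      nlinarith
  have e4 : ‖w‖ ≤ ‖fa w‖ + ‖fp w‖ := abs_le_of_sq_le_sq' (by
    rw [sq2]; nlinarith [mul_nonneg (norm_nonneg (fa w)) (norm_nonneg (fp w))]) (by positivity) |>.2
  rw [← sq_abs θ] at e3 ⊢
  exact e4.trans (alg2 e2 e3 R0)

end gen

variable {E3 : Type} [NormedAddCommGroup E3] [NormedSpace ℝ E3] [FiniteDimensional ℝ E3]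
  [MeasurableSpace E3] [BorelSpace E3]
  {H3 : Type} [TopologicalSpace H3] {I3 : ModelWithCorners ℝ E3 H3} [I3.Boundaryless]
  {Y : Type} [TopologicalSpace Y] [ChartedSpace H3 Y] [IsManifold I3 ∞ Y] [T2Space Y]
  [MeasurableSpace Y] [BorelSpace Y] [SecondCountableTopology Y] [CompactSpace Y]
  {κ : Type} [Fintype κ] {lam : Type} [Fintype lam] {D : YD I3 Y κ lam} {β : YC Y κ lam}

theorem poiH (hD : D.OK) (hβ : D.Adm β) [PreconnectedSpace Y] {y₀ : Y} (h0 : β.Φ y₀ ≠ 0) :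
    ∃ c ≥ 0, ∀ (k : Y → β.m.A) (g : Y → ℝ), Sm I3 k → Continuous g → (∀ y, Grp76.ph β.m y (k y) = k y) →
      (∀ y, ∑ a, ‖nab I3 D.F.e (aY β) a k y‖ ^ 2 + ‖opL (k y) (β.Φ y)‖ ^ 2 ≤ g y) →
      ∫ y, ‖k y‖ ^ 2 ∂D.F.μ ≤ c * ∫ y, g y ∂D.F.μ := by
  have sg : Sm I3 (Grp76.ph β.m) := sm_slice_fst (sm_ph hD.B hβ.adm) 0
  have sΦ : Sm I3 β.Φ := sm_slice_fst hβ.adm.sm 0
  obtain ⟨c, c0, h⟩ := poi_gen D.F (dimY hD) (sm_aY hβ) (sk_aY hβ)
    (T := fun y => pr2 (evP (β.Φ y)) (1 - Grp76.ph β.m y))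
    (sm_pr2 (evP.contMDiff.comp sΦ) (contMDiff_const.sub sg)) fun k hk h1 h2 => funext fun y => by
    obtain ⟨r, hr⟩ := par_const (sk_aY hβ) hk h1
    have e1 := congrArg (s2 _ _) (h2 y₀)
    have e2 := congrArg (f2 _ _) (h2 y₀)
    rw [s2_pr2, map_zero] at e1
    rw [f2_pr2, map_zero] at e2
    exact inner_self_eq_zero.1 ((hr y).trans ((hr y₀).symm.trans
      (ker_pt (x := (y₀, 0)) hD.B hβ.adm (sub_eq_zero.1 (show k y₀ - _ = 0 from e1)).symm e2 h0)))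
  refine ⟨c, c0, fun ξ g hξ hg h1 h2 => h ξ g hξ hg fun y => le_trans (le_of_eq ?_) (h2 y)⟩
  rw [sq2, f2_pr2, s2_pr2, show (1 - Grp76.ph β.m y) (ξ y) = 0 from sub_eq_zero.2 (h1 y).symm]
  simp [evP]

theorem fin {V W : Type} [NormedAddCommGroup V] [InnerProductSpace ℝ V] [NormedAddCommGroup W]
    (F : Pre I3 Y κ) {n b d j : Y → V} {k : Y → W} {θ R c C1 C2 : ℝ} (cn : Continuous n) (cb : Continuous b)
    (cd : Continuous d) (cj : Continuous j) (ck : Continuous k) (h1 : ∫ y, ⟪n y, d y⟫_ℝ ∂F.μ = 0)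
    (h2 : ∫ y, ⟪n y, j y⟫_ℝ ∂F.μ = 1) (h3 : ∀ y, ‖n y‖ ≤ R) (R0 : 0 ≤ R) (c0 : 0 ≤ c) (c1 : 0 ≤ C1) (c2 : 0 ≤ C2)
    (h4 : ∀ y, ‖b y - d y - θ • j y‖ ≤ C2 * (‖b y‖ ^ 2 + ‖k y‖ ^ 2 + θ ^ 2))
    (h5 : ∫ y, ‖k y‖ ^ 2 ∂F.μ ≤ c * ∫ y, C1 * (‖b y‖ ^ 2 + θ ^ 2) ∂F.μ) :
    |∫ y, ⟪n y, b y⟫_ℝ ∂F.μ - 1 * θ| ≤ R * C2 * ((1 + c * C1) * (1 + F.μ.real univ)) *
      (√(∫ y, ‖b y‖ ^ 2 ∂F.μ) + |1 * θ|) ^ 2 := by
  have ib : Integrable (fun y => ‖b y‖ ^ 2) F.μ := int_c F (by fun_prop)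
  have ik : Integrable (fun y => ‖k y‖ ^ 2) F.μ := int_c F (by fun_prop)
  have it : Integrable (fun _ => θ ^ 2) F.μ := int_c F continuous_const
  have e1 : ∫ y, ⟪n y, b y - d y - θ • j y⟫_ℝ ∂F.μ = ∫ y, ⟪n y, b y⟫_ℝ ∂F.μ - 1 * θ := by
    simp only [inner_sub_right, real_inner_smul_right]
    rw [integral_sub (int_c F (by fun_prop)) (int_c F (by fun_prop)),
      integral_sub (int_c F (by fun_prop)) (int_c F (by fun_prop)), integral_const_mul, h1, h2]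
    ring
  have e2 := norm_integral_le_of_norm_le (f := fun y => ⟪n y, b y - d y - θ • j y⟫_ℝ)
    ((((ib.add ik).add it).const_mul C2).const_mul R) (.of_forall fun y => (norm_inner_le_norm _ _).trans
      (mul_le_mul (h3 y) (h4 y) (norm_nonneg _) R0))
  rw [integral_const_mul, integral_add ib it, integral_const] at h5
  simp only [Pi.add_apply] at e2
  rw [e1, integral_const_mul, integral_const_mul, integral_add (by exact ib.add ik) it, integral_add ib ik,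
    integral_const] at e2
  have s0 : 0 ≤ ∫ y, ‖b y‖ ^ 2 ∂F.μ := integral_nonneg fun y => sq_nonneg _
  refine e2.trans ?_
  rw [mul_assoc, mul_assoc, one_mul, add_sq, sq_sqrt s0, sq_abs]
  refine mul_le_mul_of_nonneg_left (mul_le_mul_of_nonneg_left ?_ c2) R0
  have m0 : 0 ≤ F.μ.real univ := measureReal_nonneg
  have a1 : ∫ y, ‖b y‖ ^ 2 ∂F.μ + F.μ.real univ • θ ^ 2 ≤ (1 + F.μ.real univ) *
      (∫ y, ‖b y‖ ^ 2 ∂F.μ + 2 * √(∫ y, ‖b y‖ ^ 2 ∂F.μ) * |θ| + θ ^ 2) := by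
    have : 0 ≤ 2 * √(∫ y, ‖b y‖ ^ 2 ∂F.μ) * |θ| := by positivity
    rw [smul_eq_mul]
    nlinarith [mul_nonneg m0 s0, mul_nonneg m0 this, sq_nonneg θ]
  nlinarith [mul_le_mul_of_nonneg_left a1 (mul_nonneg c0 c1)]

theorem phs : PhStmt I3 Y κ lam := by
  intro D β hD hβ hY n ν hn
  rcases hn.alt with rfl | ⟨rfl, rfl⟩
  swap
  · exact ⟨0, le_rfl, fun _ _ _ _ _ _ _ _ _ _ _ => by simp [row]⟩
  obtain ⟨y₀, h0⟩ : ∃ y, β.Φ y ≠ 0 := by
    by_contra! h
    have := hn.J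
    simp only [h, map_zero] at this
    exact zero_ne_one (Eq.trans (integral_eq_zero_of_ae (.of_forall fun _ => inner_zero_right _)).symm this)
  obtain ⟨c, c0, hP⟩ := poiH hD hβ h0
  have cΦ : Continuous β.Φ := (sm_slice_fst hβ.adm.sm 0).continuous
  have cp : Continuous β.m.p := (sm_slice_fst hβ.adm.ok.sp 0).continuous
  have cn := hn.sm.continuous
  obtain ⟨R, hR⟩ := (isCompact_range (f := fun y => ‖(hsL : CL (En (Fin β.m.N)) β.m.A)‖ + ‖β.m.J‖ +
    (‖β.m.p y‖ + 8) + ‖hsL (β.m.p y)‖ + ‖β.Φ y‖ + ‖n y‖) (by fun_prop)).bddAbove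
  have k : ∀ y, ‖(hsL : CL (En (Fin β.m.N)) β.m.A)‖ ≤ R ∧ ‖β.m.J‖ ≤ R ∧ ‖β.m.p y‖ + 8 ≤ R ∧
      ‖hsL (β.m.p y)‖ ≤ R ∧ ‖β.Φ y‖ ≤ R ∧ ‖n y‖ ≤ R := fun y => by
    have := hR ⟨y, rfl⟩
    refine ⟨?_, ?_, ?_, ?_, ?_, ?_⟩ <;> linarith [norm_nonneg (hsL : CL (En (Fin β.m.N)) β.m.A),
      norm_nonneg β.m.J, norm_nonneg (β.m.p y), norm_nonneg (hsL (β.m.p y)), norm_nonneg (β.Φ y),
      norm_nonneg (n y)]
  have R0 := (norm_nonneg _).trans (k y₀).2.1
  refine ⟨R * (R + R * R * R + (R * R + 2 * (R * (R * R))) + R * R + R) * ((1 + c * ((R * R) ^ 2 + 2 +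
    2 * (R * R + R * (R * R)) ^ 2)) * (1 + D.F.μ.real univ)), ?_, fun a b h t θ _ sb _ hb hh ha => ?_⟩
  rotate_left
  · have s1 := sm_kp hβ.adm hh
    have s2 := sm_xi hβ.adm hh
    have ct : Continuous fun y : Y => (y, t) := continuous_id.prodMk continuous_const
    have cb : Continuous fun y => b (y, t) := sb.continuous.comp ct
    have e1 := fun y => est1 (x := (y, t)) hD.B hβ.adm hh (k y).1 (k y).2.1 (k y).2.2.1 (k y).2.2.2.1
      (k y).2.2.2.2.1 (ha y)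
    have e2 := fun y => est2 (x := (y, t)) hD.B hβ.adm hh (k y).1 (k y).2.1 (k y).2.2.1 (k y).2.2.2.1
      (k y).2.2.2.2.1 (ha y) hb
    have e3 := hP (fun y => kp (cy β) h (y, t)) _ (sm_slice_fst s1 t)
      (continuous_const.mul ((cb.norm.pow 2).add continuous_const))
      (fun y => (aut hD.B hβ.adm hh (y, t)).2.2) fun y => (add_le_add (sum_sl s1 (y, t)) le_rfl).trans (e1 y)
    simp only [(i2 _ _).map_smul] at e2
    have c1 : Continuous fun y => dg D.Z (cy β) 1 (xi (cy β) h) (y, t) :=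
      (cont_dg (sm_W hβ) hβ.adm.sm s2).comp ct
    have c2 : Continuous fun y => i2 (Fm (Option κ) β.m.A) _ (β.m.J (β.Φ y)) :=
      (i2 _ _).continuous.comp (β.m.J.continuous.comp cΦ)
    have c3 : Continuous fun y => kp (cy β) h (y, t) := s1.continuous.comp ct
    exact fin D.F.toPre cn cb c1 c2 c3 (hn.g _ s2 (fun x => (aut hD.B hβ.adm hh x).1) t)
      (Eq.trans (integral_congr_ae (.of_forall fun y => (inner2 _ _).trans
        ((congrArg (· + _) (inner_zero_right _)).trans (zero_add _)))) hn.J)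
      (fun y => (k y).2.2.2.2.2) R0 c0 (by positivity) (by positivity) e2 e3
  · have : 0 ≤ D.F.μ.real univ := measureReal_nonneg
    positivity

end Crest.Agent.X212.Hm83
end
end

-- ▼ part X212/Tr6/Bas
section

/-!
# Row 212, DEC-TR (helper6): uniform pointwise bounds and weighted norms on the cylinder
-/

set_option autoImplicit false
set_option linter.unusedSectionVars false
noncomputable section
open scoped Manifold ContDiff Topology InnerProductSpace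
open MeasureTheory Set Function Filter Real

namespace Crest.Agent.X212.Tr6
open An Map77 Sob92 Nd18 Cyf70 Dec35 Rsp69
open Neck67 (Bd)

section gen
variable {E : Type} [NormedAddCommGroup E] [NormedSpace ℝ E] [FiniteDimensional ℝ E]
  [MeasurableSpace E] [BorelSpace E]
  {HM : Type} [TopologicalSpace HM] {I : ModelWithCorners ℝ E HM} [I.Boundaryless]
  {M : Type} [TopologicalSpace M] [ChartedSpace HM M] [IsManifold I ∞ M] [MeasurableSpace M]
  [T2Space M] [BorelSpace M] [SecondCountableTopology M]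
  {ι : Type} [Fintype ι] {lam : Type} [Fintype lam]
  {N : Type} [NormedAddCommGroup N] [NormedSpace ℝ N] {𝒟 : Type*}

/-- bounds which are uniform in a family -/
abbrev UB (F : Pre I M ι) (w : 𝒟 → M → ℝ) (k : ℕ) (f : 𝒟 → M → N) : Prop :=
  Bk (N := fun _ => N) (fun _ => F) ⊤ (fun _ => univ) w k f

variable {F : Pre I M ι} {k : ℕ} {w : 𝒟 → M → ℝ} {f g : 𝒟 → M → N} {θ Δ : 𝒟 → M → ℝ}

theorem UB.eq (h : UB F w k f) (e : ∀ d x, f d x = g d x) : UB F w k g :=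
  (funext fun d => funext (e d) : f = g) ▸ h

theorem UB.sm (h : UB F w k f) (d : 𝒟) : Sm I (f d) := fun x => eventually_top.1 h.sa d x trivial

theorem UB.zero' (C : ℝ) (h : ∀ d, Sm I (f d)) (hw : ∀ d x, 0 ≤ w d x)
    (b : ∀ d x, ‖f d x‖ ≤ C * w d x) : UB F w 0 f :=
  ⟨|C|, abs_nonneg _, .of_forall fun d x _ => ⟨hw d x, h d x, .zero' ((b d x).trans
    (mul_le_mul_of_nonneg_right (le_abs_self C) (hw d x)))⟩⟩

theorem UB.wt' (h : UB F w k f) {w' : 𝒟 → M → ℝ} (C : ℝ) (h0 : ∀ d x, 0 ≤ w' d x)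
    (h1 : ∀ d x, w d x ≤ C * w' d x) : UB F w' k f :=
  h.wt (.of_forall fun d x _ => ⟨h0 d x, h1 d x⟩)

theorem UB.cst (c : 𝒟 → ℝ) : UB F (fun d _ => |c d|) k fun d _ => c d :=
  ⟨1, zero_le_one, .of_forall fun d x _ => ⟨abs_nonneg _, contMDiffAt_const,
    (PB.const k (c d) x).mono (by simp)⟩⟩

theorem UB.cl {N' : Type} [NormedAddCommGroup N'] [NormedSpace ℝ N'] (L : N →L[ℝ] N')
    (h : UB F w k f) : UB F w k fun d x => L (f d x) := h.clm (L := fun _ => L) (.const _)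

theorem ub_const (c : N) : UB (𝒟 := 𝒟) F 1 k fun _ _ => c := Bk.const (.const _)

theorem ub_exp {ψ : 𝒟 → M → ℝ} {dd : 𝒟 → ℝ} {D : ℕ → ℝ} (h : ∀ d, Wd F (ψ d) (dd d) D) (k : ℕ) :
    UB F (fun d x => exp (ψ d x)) k fun d x => exp (ψ d x) := by
  have h0 : UB F (fun d x => exp (ψ d x)) 0 fun d x => exp (ψ d x) :=
    .zero' 1 (fun d => Mon62.sm_comp contDiff_exp (h d).sm) (fun _ _ => (exp_pos _).le) (by simp)
  induction k with
  | zero => exact h0
  | succ k ih =>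
    refine h0.succ fun a => UB.eq ((Bk.of_CBs (.of_forall fun d => (h d).der a)).smulR ih)
      fun d x => ?_
    rw [Mon62.D_comp contDiff_exp (h d).sm, Real.deriv_exp, smul_eq_mul, mul_comm]

/-- bounded phases -/
def CS (F : Pre I M ι) (k : ℕ) (θ : 𝒟 → M → ℝ) : Prop :=
  UB F 1 k (fun d x => cos (θ d x)) ∧ UB F 1 k fun d x => sin (θ d x)

theorem cs_of (h : ∀ d, Sm I (θ d)) (k : ℕ) : (∀ a, UB F 1 k fun d => F.D a (θ d)) → CS F k θ := by
  have h0 : CS F 0 θ :=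
    ⟨.zero' 1 (fun d => Mon62.sm_comp contDiff_cos (h d)) (fun _ _ => zero_le_one)
      fun _ _ => by simpa using abs_cos_le_one _,
    .zero' 1 (fun d => Mon62.sm_comp contDiff_sin (h d)) (fun _ _ => zero_le_one)
      fun _ _ => by simpa using abs_sin_le_one _⟩
  induction k with
  | zero => exact fun _ => h0
  | succ k ih =>
    intro b
    have c := fun a => (b a).of_le k.le_succ
    refine ⟨h0.1.succ fun a => UB.eq ((ih c).2.neg.smulR (c a)) fun d x => ?_,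
      h0.2.succ fun a => UB.eq ((ih c).1.smulR (c a)) fun d x => ?_⟩
    · rw [Mon62.D_comp contDiff_cos (h d), Real.deriv_cos', smul_eq_mul]
    · rw [Mon62.D_comp contDiff_sin (h d), Real.deriv_sin, smul_eq_mul]

theorem CS.add (h : CS F k θ) (b : UB F 1 k Δ) : CS F k fun d x => θ d x + Δ d x :=
  ⟨UB.eq ((h.1.smulR (b.comp k contDiff_cos)).sub (h.2.smulR (b.comp k contDiff_sin)))
    fun _ _ => (cos_add _ _).symm,
   UB.eq ((h.2.smulR (b.comp k contDiff_cos)).add (h.1.smulR (b.comp k contDiff_sin)))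
    fun _ _ => (sin_add _ _).symm⟩

variable {r : ℕ} {c : Cfg M ι lam r}

theorem CS.ph (h : CS F k θ) : UB F 1 k fun d x => ph c (θ d x) :=
  (h.1.smulL (ub_const _)).add (h.2.smulL (ub_const _))

theorem CS.ph_sub (h : CS F k θ) (b : UB F 1 k Δ) (b' : UB F w k Δ) :
    UB F w k fun d x => Dec35.ph c (θ d x + Δ d x) - Dec35.ph c (θ d x) := by
  have z : UB F w k fun d x => Δ d x - 0 := UB.eq b' fun _ _ => (sub_zero _).symm
  refine UB.eq (((b.comp_sub k contDiff_cos (ub_const 0) z).smulL (h.ph (c := c))).add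
    ((b.comp_sub k contDiff_sin (ub_const 0) z).smulL ((h.2.neg.smulL (ub_const 1)).add
      (h.1.smulL (ub_const c.m.J))))) fun d x => ?_
  simp only [Dec35.ph, cos_add, sin_add, cos_zero, sin_zero]
  module

variable {v v' : 𝒟 → M → Cv c}

theorem CS.rot (h : CS F k θ) (hΦ : F.Cb c.Φ) (hv : UB F 1 k v) :
    UB F 1 k fun d => Dec35.rot c (θ d) (v d) := by
  have a0 : UB (𝒟 := 𝒟) F 1 k fun _ => c.Φ := Bk.of_Cb hΦ
  have a1 := ((h.ph (c := c)).appL (a0.add (hv.cl fp))).sub a0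
  exact UB.eq ((UB.cl (i1 _ _) (hv.cl fa)).add (UB.cl (i2 _ _) a1)) fun d x => by rw [Dec35.rot]

theorem CS.rot_sub (h : CS F k θ) (b : UB F 1 k Δ) (b' : UB F w k Δ) (hΦ : F.Cb c.Φ)
    (hv : UB F 1 k v) (hv' : UB F w k fun d x => v' d x - v d x) :
    UB F w k fun d => Dec35.rot c (fun x => θ d x + Δ d x) (v' d) - Dec35.rot c (θ d) (v d) := by
  have a1 := ((h.add b).ph (c := c)).appR (hv'.cl fp)
  have a2 := (h.ph_sub (c := c) b b').appL ((Bk.of_Cb hΦ).add (hv.cl fp))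
  refine UB.eq ((UB.cl (i1 _ _) (hv'.cl fa)).add (UB.cl (i2 _ _) (a1.add a2))) fun d x => ?_
  refine ext2 (by simp [Dec35.rot]) ?_
  simp only [Pi.sub_apply, Dec35.rot, map_sub, map_add, sub_apply, s2_i1, s2_i2, zero_add]
  abel

theorem tg_rot {B : Base M ι lam} {G : Geo I M ι lam} (hc : c.Adm B G) (θ : M → ℝ) {u : M → Cv c}
    (hu : Tg B c u) : Tg B c (rot c θ u) := by
  obtain ⟨h1, h2, h3⟩ := Cay24.tg_iff.1 hu
  have e : ∀ x, fa (rot c θ u x) = fa (u x) := fun x => by simp [rot]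
  refine Cay24.tg_iff.2 ⟨fun x => e x ▸ h1 x, fun x => e x ▸ h2 x, fun x => ?_⟩
  have j : ∀ y, c.m.pp B x (c.m.J y) = c.m.J (c.m.pp B x y) := fun y =>
    (congrArg (· y) (Wz78.J_pp hc.ok x)).symm
  simp [rot, ph, j, h3 x, hc.pos x]

theorem tg_smul {B : Base M ι lam} (χ : M → ℝ) {u : M → Cv c} (hu : Tg B c u) :
    Tg B c fun x => χ x • u x := fun x => by rw [map_smul, hu x]

theorem nrm_add2 {V : Type} [NormedAddCommGroup V] [InnerProductSpace ℝ V] {u v : M → V}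
    (hu : Fl F u) (hv : Fl F v) (k : ℕ) : F.nrm k (u + v) ≤ 2 * (F.nrm k u + F.nrm k v) := by
  have a := nrm_nonneg (F := F) k u
  have b := nrm_nonneg (F := F) k v
  refine nrm_le_of_sq (by positivity) ((Cay24.N2_add k hu hv).trans ?_)
  rw [← nrm_sq, ← nrm_sq]
  nlinarith [mul_nonneg a b]

theorem N2_le {G : M → ℝ} (hG : Integrable (fun x => G x ^ 2) F.μ) (k : ℕ) : ∀ {u : M → N},
    (∀ x, PB F k u x (G x)) → N2 F k u ≤ (1 + Fintype.card ι) ^ k * ∫ x, G x ^ 2 ∂F.μ := by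
  have h0 : ∀ {u : M → N} {k}, (∀ x, PB F k u x (G x)) → N2 F 0 u ≤ ∫ x, G x ^ 2 ∂F.μ := fun h =>
    integral_mono_of_nonneg (.of_forall fun _ => by positivity) hG
      (.of_forall fun x => pow_le_pow_left₀ (norm_nonneg _) (h x).bd 2)
  have p : 0 ≤ ∫ x, G x ^ 2 ∂F.μ := integral_nonneg fun _ => by positivity
  induction k with
  | zero => exact fun h => by simpa using h0 h
  | succ k ih =>
    intro u h
    refine (add_le_add (h0 h) (Finset.sum_le_sum fun a _ => ih fun x => (h x).D a)).trans ?_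
    have : (1 : ℝ) ≤ (1 + Fintype.card ι) ^ k := one_le_pow₀ (by simp)
    simp only [Finset.sum_const, Finset.card_univ, nsmul_eq_mul]
    rw [pow_succ]
    nlinarith [mul_le_mul_of_nonneg_right this p]

end gen

variable {E3 : Type} [NormedAddCommGroup E3] [NormedSpace ℝ E3] [FiniteDimensional ℝ E3]
  [MeasurableSpace E3] [BorelSpace E3]
  {H3 : Type} [TopologicalSpace H3] {I3 : ModelWithCorners ℝ E3 H3} [I3.Boundaryless]
  {Y : Type} [TopologicalSpace Y] [ChartedSpace H3 Y] [IsManifold I3 ∞ Y] [T2Space Y]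
  [MeasurableSpace Y] [BorelSpace Y] [SecondCountableTopology Y] [CompactSpace Y]
  {κ : Type} [Fintype κ] {𝒟 : Type*} {F : Pre I3 Y κ} {k : ℕ}
  {V : Type} [NormedAddCommGroup V] [InnerProductSpace ℝ V]

theorem int_exp {δ : ℝ} (hδ : 0 < δ) : Integrable fun t : ℝ => exp (-δ * |t|) := by
  rw [← integrableOn_univ, ← Iic_union_Ioi (a := 0)]
  exact ((integrableOn_exp_mul_Iic hδ 0).congr_fun (fun t ht => by
    simp [abs_of_nonpos (show t ≤ 0 from ht)]) measurableSet_Iic).union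
    ((integrableOn_exp_mul_Ioi (neg_lt_zero.2 hδ) 0).congr_fun (fun t ht => by
      simp [abs_of_pos (show 0 < t from ht)]) measurableSet_Ioi)

theorem nrm_of_pb (F : Pre I3 Y κ) {δ : ℝ} (hδ : 0 < δ) (k : ℕ) : ∃ K ≥ 0, ∀ (u : Y × ℝ → V) (s m : ℝ),
    0 ≤ m → (∀ x, PB (cylP F) k u x (m * exp (-δ * |x.2 - s|))) → (cylP F).nrm k u ≤ K * m := by
  have := F.fin
  have i := int_exp (δ := 2 * δ) (by positivity)
  have p : 0 ≤ (1 + Fintype.card (Option κ) : ℝ) ^ k * (F.μ.real univ * ∫ t : ℝ, exp (-(2 * δ) * |t|)) :=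
    mul_nonneg (by positivity) (mul_nonneg measureReal_nonneg (integral_nonneg fun _ => (exp_pos _).le))
  have q := sq_sqrt p
  set K := √((1 + Fintype.card (Option κ) : ℝ) ^ k * (F.μ.real univ * ∫ t : ℝ, exp (-(2 * δ) * |t|)))
  refine ⟨K, sqrt_nonneg _, fun u s m hm h => nrm_le_of_sq (mul_nonneg (sqrt_nonneg _) hm) ?_⟩
  have e : ∀ x : Y × ℝ, (m * exp (-δ * |x.2 - s|)) ^ 2 = m ^ 2 * exp (-(2 * δ) * |x.2 - s|) := fun x => by
    rw [mul_pow, ← exp_nat_mul]; congr 2; push_cast; ring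
  refine (N2_le ?_ k h).trans_eq ?_
  · simp only [e]
    exact (((i.comp_sub_right s).comp_snd F.μ)).const_mul _
  · simp only [e]
    rw [mul_pow, q, integral_const_mul, cylP_μ,
      integral_fun_snd fun t : ℝ => exp (-(2 * δ) * |t - s|),
      integral_sub_right_eq_self (fun t : ℝ => exp (-(2 * δ) * |t|)) s, smul_eq_mul]
    ring

/-- the weighted norm of a family which is supported where the weight decays -/
theorem nw_cut {δ : ℝ} (hδ : 0 < δ) {f : 𝒟 → Y × ℝ → V} {m a s α β dd : 𝒟 → ℝ} {ψ : 𝒟 → ℝ → ℝ}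
    {D : ℕ → ℝ} (hf : UB (cylP F) (fun d _ => m d) k f)
    (hψ : ∀ d, Wd (cylP F) (fun x => ψ d x.2) (dd d) D) (h0 : ∀ d, 0 ≤ m d)
    (h1 : ∀ d x, x.2 ∉ Icc (α d) (β d) → f d x = 0)
    (h2 : ∀ d, ∀ t ∈ Icc (α d) (β d), ψ d t ≤ a d - δ * |t - s d|) :
    ∃ K ≥ 0, ∀ d, nw (cylP F) k (fun x => ψ d x.2) (f d) ≤ K * exp (a d) * m d := by
  obtain ⟨K, k0, hK⟩ := nrm_of_pb (V := V) F hδ k
  obtain ⟨C, c0, hC⟩ := Bk.bil (B := fun _ => ContinuousLinearMap.lsmul ℝ ℝ (E := V)) (.const _)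
    (ub_exp hψ k) hf
  refine ⟨K * C, by positivity, fun d => (hK _ (s d) (C * exp (a d) * m d)
    (by have := h0 d; positivity) fun x => ?_).trans_eq (by ring)⟩
  by_cases hx : x.2 ∈ Icc (α d) (β d)
  · refine (eventually_top.1 hC d x trivial).2.2.mono ?_
    have := exp_le_exp.2 (h2 d _ hx)
    rw [sub_eq_add_neg, exp_add, ← neg_mul] at this
    have := mul_le_mul_of_nonneg_left this (mul_nonneg c0 (h0 d))
    linarith
  · refine .of_ev_zero k (mem_of_superset ((isClosed_Icc.preimage continuous_snd).isOpen_compl.mem_nhds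
      hx) fun y hy => ?_) (by have := h0 d; positivity)
    simp [h1 d y hy]

variable {f : 𝒟 → ℝ → ℝ} {w : 𝒟 → Y × ℝ → ℝ}

theorem ub_D (h : ∀ d, ContDiff ℝ ∞ (f d)) (h1 : UB (cylP F) w k fun d x => deriv (f d) x.2)
    (a : Option κ) : UB (cylP F) w k fun d => (cylP F).D a fun x => f d x.2 := by
  cases a with
  | none => exact UB.eq h1 fun d x => by rw [D_none_snd F (h d)]
  | some a => exact UB.eq (Bk.zero h1.nn) fun d x => by rw [D_some_snd F (h d)]; rfl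

theorem ub_t (k : ℕ) : ∀ {f : 𝒟 → ℝ → ℝ} {m : 𝒟 → ℝ}, (∀ d, ContDiff ℝ ∞ (f d) ∧ Bd k (f d) (m d)) →
    UB (cylP F) (fun d _ => m d) k fun d x => f d x.2 := by
  have h0 : ∀ {k} {f : 𝒟 → ℝ → ℝ} {m : 𝒟 → ℝ}, (∀ d, ContDiff ℝ ∞ (f d) ∧ Bd k (f d) (m d)) →
      UB (cylP F) (fun d _ => m d) 0 fun d x => f d x.2 := fun h =>
    .zero' 1 (fun d => sm_snd (h d).1) (fun d _ => (h d).2.nonneg)
      fun d x => by simpa using (h d).2.abs_le x.2
  induction k with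
  | zero => exact h0
  | succ k ih => exact fun h => (h0 h).succ (ub_D (fun d => (h d).1)
      (ih fun d => ⟨Neck67.cd_deriv (h d).1, (h d).2.2⟩))

theorem ub_up {p a : 𝒟 → ℝ} (h : ∀ d, 1 ≤ a d) :
    UB (cylP F) 1 k fun d x => Neck67.up (p d) (a d) x.2 :=
  UB.wt' (ub_t k fun d => ⟨(Neck67.sm_up (h d) _).cd, (Neck67.bd_up k (h d) _).of_succ⟩)
    (Neck67.cS k) (fun _ _ => zero_le_one) fun _ _ => (mul_one _).ge

theorem ub_dn {p a : 𝒟 → ℝ} (h : ∀ d, 1 ≤ a d) :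
    UB (cylP F) 1 k fun d x => Neck67.dn (p d) (a d) x.2 :=
  UB.wt' (ub_t k fun d => ⟨(Neck67.sm_dn (h d) _).cd, (Neck67.bd_dn k (h d) _).of_succ⟩)
    (Neck67.cS k) (fun _ _ => zero_le_one) fun _ _ => (mul_one _).ge

end Crest.Agent.X212.Tr6
end
end

-- ▼ part X212/Tr6/One
section

/-!
# Row 212, DEC-TR (helper6): moving the right end of the cut
-/

set_option autoImplicit false
set_option linter.unusedSectionVars false
noncomputable section
open scoped Manifold ContDiff Topology InnerProductSpace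
open MeasureTheory Set Function Filter Real

namespace Crest.Agent.X212.Tr6
open An Map77 Sob92 Nd18 Cyf70 Dec35 Rsp69
open Neck67 (Bd up dn up_zero up_one dn_zero dn_one)

section time
variable {th : ℝ → ℝ} {L p q q' c t η : ℝ}

theorem sm_chi (p q : ℝ) : Neck67.Sm (chi p q) := (Neck67.sm_up le_rfl p).mul (Neck67.sm_dn le_rfl q)

theorem chi_lo (h : t ≤ p) : chi p q t = 0 := by rw [chi, up_zero one_pos h, zero_mul]

theorem chi_hi (h : q ≤ t) : chi p q t = 0 := by rw [chi, dn_zero one_pos h, mul_zero]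

theorem chi_eq (hq : q ≤ q') (h : t ≤ q - 1) : chi p q' t = chi p q t := by
  rw [chi, chi, dn_one one_pos h, dn_one one_pos (by linarith)]

theorem ret_zero (hL : 1 ≤ L) (h : t ∉ Icc (p - L) (q + L)) : ret L p q t = 0 := by
  rcases not_and_or.1 h with h | h
  · rw [ret, up_zero (by linarith) (not_le.1 h).le, zero_mul]
  · rw [ret, dn_zero (by linarith) (not_le.1 h).le, mul_zero]

variable (h : ContDiff ℝ ∞ th)
include h

theorem cd_int (p q : ℝ) : ContDiff ℝ ∞ fun s => chi p q s * deriv th s :=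
  (sm_chi p q).cd.mul (Neck67.cd_deriv h)

theorem hd_vth (p q t : ℝ) : HasDerivAt (vth th p q) (chi p q t * deriv th t) t :=
  ((cd_int h p q).continuous.integral_hasStrictDerivAt p t).hasDerivAt

theorem cd_vth (p q : ℝ) : ContDiff ℝ ∞ (vth th p q) :=
  contDiff_infty_iff_deriv.2 ⟨fun t => (hd_vth h p q t).differentiableAt,
    (funext fun t => (hd_vth h p q t).deriv : deriv _ = _) ▸ cd_int h p q⟩

theorem vth_hi (ht : q ≤ t) : vth th p q t = vth th p q q := by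
  have i := (cd_int h p q).continuous.intervalIntegrable (μ := volume)
  rw [vth, ← intervalIntegral.integral_add_adjacent_intervals (i p q) (i q t),
    intervalIntegral.integral_congr (a := q) (g := fun _ => 0) fun s hs => by
      rw [uIcc_of_le ht] at hs; simp [chi_hi hs.1]]
  simp [vth]

theorem vth_bd (b : ∀ t, |deriv th t| ≤ η) (hq : q ≤ q') (hq' : q' ≤ q + 2) (t : ℝ) :
    |vth th p q' t - vth th p q t| ≤ 3 * η := by
  have i := fun q => (cd_int h p q).continuous.intervalIntegrable (μ := volume) p t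
  have e0 := (abs_nonneg _).trans (b 0)
  have j : Integrable ((Icc (q - 1) q').indicator fun _ => η) :=
    (integrableOn_const (by simp)).integrable_indicator measurableSet_Icc
  rw [vth, vth, ← intervalIntegral.integral_sub (i q') (i q), ← Real.norm_eq_abs]
  refine intervalIntegral.norm_integral_le_integral_norm_uIoc.trans ((integral_mono_of_nonneg
    (.of_forall fun _ => by positivity) j.integrableOn (.of_forall fun s => ?_)).trans
    ((setIntegral_le_integral j (.of_forall (indicator_nonneg fun _ _ => e0))).trans ?_))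
  · by_cases hs : s ∈ Icc (q - 1) q'
    · have a : ∀ q, 0 ≤ chi p q s := fun q =>
        mul_nonneg (Neck67.up_mem p 1 s).1 (Neck67.dn_mem q 1 s).1
      have a' : ∀ q, chi p q s ≤ 1 := fun q => mul_le_one₀ (Neck67.up_mem p 1 s).2 (Neck67.dn_mem q 1 s).1
        (Neck67.dn_mem q 1 s).2
      simp only [indicator_of_mem hs, ← sub_mul, norm_mul, Real.norm_eq_abs]
      exact (mul_le_of_le_one_left (abs_nonneg _) (abs_le.2 ⟨by linarith [a q', a' q],
        by linarith [a q, a' q']⟩)).trans (b s)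
    · rcases not_and_or.1 hs with k | k
      · simp [indicator_of_notMem hs, chi_eq hq (not_le.1 k).le]
      · simp [indicator_of_notMem hs, chi_hi (not_le.1 k).le, chi_hi (hq.trans (not_le.1 k).le)]
  · rw [integral_indicator measurableSet_Icc, setIntegral_const, Real.volume_real_Icc_of_le
      (by linarith), smul_eq_mul]
    exact mul_le_mul_of_nonneg_right (by linarith) e0

omit h in
theorem vth_lo (ht : t ≤ p) : vth th p q t = 0 := by
  rw [vth, intervalIntegral.integral_congr (g := fun _ => 0) fun s hs => by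
    rw [uIcc_of_ge ht] at hs; simp [chi_lo hs.2]]
  simp

omit h in
theorem vth_eq (hq : q ≤ q') (ht : t ≤ q - 1) : vth th p q' t = vth th p q t :=
  intervalIntegral.integral_congr fun s hs => by
    rcases le_max_iff.1 hs.2 with k | k
    · simp [chi_lo k]
    · simp [chi_eq hq (k.trans ht)]

theorem Th_eq (hL : 1 ≤ L) (hp : p ≤ q) (t : ℝ) : Th th L p q c t =
    vth th p q t + (c * up (p - L) L t - (c + vth th p q q) * (1 - dn (q + L) L t)) := by
  have l : 0 < L := by linarith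
  rw [Th, ret]
  rcases le_total t p with a | a
  · rw [vth_lo a, dn_one l (by linarith)]; ring
  rw [up_one l (by linarith)]
  rcases le_total t q with b | b
  · rw [dn_one l (by linarith)]; ring
  · rw [vth_hi h b]; ring

end time

variable {E3 : Type} [NormedAddCommGroup E3] [NormedSpace ℝ E3] [FiniteDimensional ℝ E3]
  [MeasurableSpace E3] [BorelSpace E3]
  {H3 : Type} [TopologicalSpace H3] {I3 : ModelWithCorners ℝ E3 H3} [I3.Boundaryless]
  {Y : Type} [TopologicalSpace Y] [ChartedSpace H3 Y] [IsManifold I3 ∞ Y] [T2Space Y]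
  [MeasurableSpace Y] [BorelSpace Y] [SecondCountableTopology Y] [CompactSpace Y]
  {κ : Type} [Fintype κ] {lam : Type} [Fintype lam] {D : YD I3 Y κ lam} {β : YC Y κ lam}

theorem cb_Φ (hβ : D.Adm β) : (cylP D.F.toPre).Cb (cy β).Φ :=
  Cht98.Cb_fst _ (Cb_of_compact (sm_slice_fst hβ.adm.sm 0))

theorem fl_cut {N : Type} [NormedAddCommGroup N] [NormedSpace ℝ N] {u : Y × ℝ → N} {a b : ℝ}
    (hu : Sm (IC I3) u) (h : ∀ x : Y × ℝ, x.2 ∉ Icc a b → u x = 0) : Fl D.Z.toPre u :=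
  .of_hcs hu (.intro (isCompact_univ.prod isCompact_Icc) fun x hx => h x fun k => hx ⟨trivial, k⟩)

theorem Xc_zero (v : Cz β) (th : ℝ → ℝ) {L p q : ℝ} (c : ℝ) (hL : 1 ≤ L) (x : Y × ℝ)
    (h : x.2 ∉ Icc (p - L) (q + L)) : Xc v th L p q c x = 0 := by
  have : chi p q x.2 = 0 := (not_and_or.1 h).elim (fun k => chi_lo (by linarith [not_le.1 k]))
    fun k => chi_hi (by linarith [not_le.1 k])
  simp [Xc, rot, Th, ret_zero hL h, this, ph]

/-- the parameters of `Tr1Stmt` -/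
structure P1 (D : YD I3 Y κ lam) (β : YC Y κ lam) (δ : ℝ) (k : ℕ) (Dd : ℕ → ℝ) (A : ℝ) where
  (η L p q q' c d : ℝ)
  v : Cz β
  (th ψ : ℝ → ℝ)
  vb : Vb D β v
  cb : D.Z.CB k v η
  cd : ContDiff ℝ ∞ th
  bd : Bd k (deriv th) η
  η1 : η ≤ 1
  hL : 1 ≤ L
  pq : p ≤ q
  qq : q ≤ q'
  q2 : q' ≤ q + 2
  c1 : |c| ≤ 1
  c2 : |c + vth th p q q| ≤ 1
  wd : Wd D.Z.toPre (fun x => ψ x.2) d Dd
  hi : ∀ t, ψ t ≤ δ * tent L p q' t + A

namespace P1
variable {δ A : ℝ} {k : ℕ} {Dd : ℕ → ℝ}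

/-- the size of the change -/
def m (d : P1 D β δ k Dd A) : ℝ := d.η + |d.c + vth d.th d.p d.q d.q|

theorem mη (d : P1 D β δ k Dd A) : d.η ≤ d.m := le_add_of_nonneg_right (abs_nonneg _)

theorem m0 (d : P1 D β δ k Dd A) : 0 ≤ d.m := d.bd.nonneg.trans d.mη

theorem vb' (d : P1 D β δ k Dd A) (t : ℝ) :
    |vth d.th d.p d.q' t - vth d.th d.p d.q t| ≤ 3 * d.η := vth_bd d.cd d.bd.abs_le d.qq d.q2 t

theorem ve (d : P1 D β δ k Dd A) : |vth d.th d.p d.q' d.q' - vth d.th d.p d.q d.q| ≤ 3 * d.η :=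
  vth_hi d.cd d.qq ▸ d.vb' d.q'

theorem one {N : Type} [NormedAddCommGroup N] [NormedSpace ℝ N] {f : P1 D β δ k Dd A → Y × ℝ → N}
    (h : UB (cylP D.F.toPre) (fun d _ => d.m) k f) : UB (cylP D.F.toPre) 1 k f :=
  h.wt' 2 (fun _ _ => zero_le_one) fun d _ => by
    have := d.η1; have := d.c2; simp only [m, Pi.one_apply]; linarith

theorem χ (q : P1 D β δ k Dd A → ℝ) : UB (cylP D.F.toPre) 1 k fun d x => chi d.p (q d) x.2 :=
  (ub_up fun _ => le_rfl).smulR (ub_dn fun _ => le_rfl)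

theorem dn' (q : P1 D β δ k Dd A → ℝ) :
    UB (cylP D.F.toPre) 1 k fun d x => dn (q d + d.L) d.L x.2 := ub_dn fun d => d.hL

theorem t1 : UB (cylP D.F.toPre) (fun (d : P1 D β δ k Dd A) _ => d.m) k fun d x => deriv d.th x.2 :=
  UB.wt' (ub_t k fun d => ⟨Neck67.cd_deriv d.cd, d.bd⟩) 1 (fun d _ => d.m0)
    fun d _ => d.mη.trans (one_mul _).ge

theorem v1 : UB (cylP D.F.toPre) (fun (d : P1 D β δ k Dd A) _ => d.m) k fun d => d.v :=
  ⟨1, zero_le_one, .of_forall fun d x _ => ⟨d.m0, d.vb.cb.choose_spec.1 x,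
    (PB.of_CB d.cb x).mono (d.mη.trans (one_mul _).ge)⟩⟩

theorem c' : UB (cylP D.F.toPre) (fun (d : P1 D β δ k Dd A) _ => d.m) k
    fun d _ => d.c + vth d.th d.p d.q d.q :=
  (UB.cst _).wt' 1 (fun d _ => d.m0) fun d _ => by simpa [m] using d.bd.nonneg

theorem θ : CS (cylP D.F.toPre) k fun (d : P1 D β δ k Dd A) x => Th d.th d.L d.p d.q d.c x.2 := by
  have a : UB (cylP D.F.toPre) 1 k fun (d : P1 D β δ k Dd A) _ => d.c :=
    (UB.cst _).wt' 1 (fun _ _ => zero_le_one) fun d _ => by simpa using d.c1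
  have := (cs_of (fun d => sm_snd (cd_vth d.cd d.p d.q)) k (ub_D (fun d => cd_vth d.cd d.p d.q)
    (UB.eq ((χ q).smulR (one t1)) fun d x => (hd_vth d.cd _ _ _).deriv.symm))).add
    ((a.smulR (ub_up (p := fun d => d.p - d.L) fun d => d.hL)).sub
      ((one c').smulR ((ub_const (1 : ℝ)).sub (dn' q))))
  simpa only [Th_eq (cd _) (hL _) (pq _), smul_eq_mul] using this

theorem Δ : UB (cylP D.F.toPre) (fun (d : P1 D β δ k Dd A) _ => d.m) k fun d x =>
    Th d.th d.L d.p d.q' d.c x.2 - Th d.th d.L d.p d.q d.c x.2 := by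
  have s := fun d : P1 D β δ k Dd A => (cd_vth d.cd d.p d.q').sub (cd_vth d.cd d.p d.q)
  have a := (UB.zero' 3 (fun d => sm_snd (s d)) (fun d _ => d.m0) fun d x =>
    (d.vb' x.2).trans (by linarith [d.mη])).succ (ub_D s (UB.eq (((χ q').sub (χ q)).smulR t1)
      fun d x => (sub_mul _ _ _).trans ((hd_vth d.cd _ _ _).sub (hd_vth d.cd _ _ _)).deriv.symm))
  have b : UB (cylP D.F.toPre) (fun (d : P1 D β δ k Dd A) _ => d.m) k
      fun d _ => vth d.th d.p d.q' d.q' - vth d.th d.p d.q d.q :=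
    (UB.cst _).wt' 3 (fun d _ => d.m0) fun d _ => d.ve.trans (by linarith [d.mη])
  refine UB.eq (((a.of_le k.le_succ).sub (b.smulL ((ub_const (1 : ℝ)).sub (dn' q')))).add
    (c'.smulL ((dn' q').sub (dn' q)))) fun d x => ?_
  rw [Th_eq d.cd d.hL d.pq, Th_eq d.cd d.hL (d.pq.trans d.qq), smul_eq_mul, smul_eq_mul]
  ring

variable (hβ : D.Adm β)
include hβ

theorem x0 : UB (cylP D.F.toPre) 1 k fun d : P1 D β δ k Dd A => Xc d.v d.th d.L d.p d.q d.c :=
  θ.rot (cb_Φ hβ) ((χ q).smulR (one v1))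

theorem x1 : UB (cylP D.F.toPre) 1 k fun d : P1 D β δ k Dd A => Xc d.v d.th d.L d.p d.q' d.c := by
  have := (θ.add (one Δ)).rot (cb_Φ hβ) ((χ (δ := δ) (k := k) (Dd := Dd) (A := A) q').smulR (one v1))
  simpa only [add_sub_cancel, Xc] using this

theorem x2 : UB (cylP D.F.toPre) (fun d _ => d.m) k fun d : P1 D β δ k Dd A =>
    Xc d.v d.th d.L d.p d.q' d.c - Xc d.v d.th d.L d.p d.q d.c := by
  have := θ.rot_sub (one Δ) Δ (cb_Φ hβ) ((χ (δ := δ) (k := k) (Dd := Dd) (A := A) q).smulR (one v1))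
    (UB.eq (((χ q').sub (χ q)).smulR v1) fun d x => sub_smul _ _ _)
  simpa only [add_sub_cancel, Xc] using this

theorem nw' (δ0 : 0 < δ) (δ1 : δ ≤ 1) : ∃ K ≥ 0, ∀ d : P1 D β δ k Dd A,
    nw D.Z.toPre k (fun x => d.ψ x.2) (Xc d.v d.th d.L d.p d.q' d.c - Xc d.v d.th d.L d.p d.q d.c) ≤
      K * exp (δ * d.L + (A + 6)) * d.m :=
  nw_cut (s := q') (α := fun d => d.q - 1) (β := fun d => d.q' + d.L) δ0 (x2 hβ) wd m0
    (fun d x hx => by
      rcases not_and_or.1 hx with a | a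
      · have a := (not_le.1 a).le
        have l : 0 < d.L := by linarith [d.hL]
        simp only [Pi.sub_apply, Xc, rot, Th, ret, chi_eq d.qq a, vth_eq d.qq a,
          dn_one l (show x.2 ≤ d.q + d.L - d.L by linarith),
          dn_one l (show x.2 ≤ d.q' + d.L - d.L by linarith [d.qq]), sub_self]
      · exact sub_eq_zero.2 ((Xc_zero _ _ _ d.hL x fun b => a b.2).trans
          (Xc_zero _ _ _ d.hL x fun b => a (b.2.trans (by linarith [d.qq]))).symm))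
    fun d t ht => (d.hi t).trans (by
      have a : tent d.L d.p d.q' t ≤ d.L + (d.q' - t) :=
        max_le (by linarith [ht.2]) (add_le_add le_rfl (min_le_right _ _))
      have b : |t - d.q'| ≤ t - d.q' + 6 := abs_le.2 ⟨by linarith [ht.1, d.q2], by linarith⟩
      nlinarith)

end P1

theorem tr1 : Tr1Stmt I3 Y κ lam := by
  intro D β _ hβ δ δ0 δ1 k Dd A
  obtain ⟨K, k0, hK⟩ := P1.nw' (k := k) (Dd := Dd) (A := A) hβ δ0 δ1
  obtain ⟨K0, k1, h0⟩ := P1.x0 (δ := δ) (k := k) (Dd := Dd) (A := A) hβ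
  obtain ⟨K1, k2, h1⟩ := P1.x1 (δ := δ) (k := k) (Dd := Dd) (A := A) hβ
  refine ⟨K0 + K1 + K * exp (A + 6), by positivity,
    fun η L p q q' c d v th ψ a1 a2 a3 _ a4 a5 a6 a7 a8 a9 b1 b2 b3 b4 => ?_⟩
  let P : P1 D β δ k Dd A := ⟨η, L, p, q, q', c, d, v, th, ψ, a1, a2, a3, a4, a5, a6, a7, a8, a9,
    b1, b2, b3, b4⟩
  have e : 0 ≤ K * exp (A + 6) := by positivity
  refine ⟨⟨fl_cut ((P1.x0 hβ).sm P) (Xc_zero _ _ _ a6), tg_rot hβ.adm _ (tg_smul _ a1.tg)⟩,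
    ⟨fl_cut ((P1.x1 hβ).sm P) (Xc_zero _ _ _ a6), tg_rot hβ.adm _ (tg_smul _ a1.tg)⟩,
    CB_of_PB fun x => (eventually_top.1 h0 P x trivial).2.2.mono (by simp; linarith),
    CB_of_PB fun x => (eventually_top.1 h1 P x trivial).2.2.mono (by simp; linarith), P.ve,
    (hK P).trans (mul_le_mul_of_nonneg_right ?_ P.m0)⟩
  rw [exp_add, mul_comm (exp _), ← mul_assoc]
  exact mul_le_mul_of_nonneg_right (by linarith) (exp_pos _).le

end Crest.Agent.X212.Tr6
end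
end

-- ▼ part X212/Tr6/Two

/-!
# Row 212, DEC-TR (helper6): changing the phase
-/

set_option autoImplicit false
set_option linter.unusedSectionVars false
noncomputable section
open scoped Manifold ContDiff Topology InnerProductSpace
open MeasureTheory Set Function Filter Real

namespace Crest.Agent.X212.Tr6
open An Map77 Sob92 Nd18 Cyf70 Dec35 Rsp69
open Neck67 (up_one dn_one)

theorem int_bd {Y V : Type*} [MeasurableSpace Y] [NormedAddCommGroup V] {μ : Measure Y}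
    [IsFiniteMeasure μ] {g : Y → ℝ} {b : Y → V} (hb : Integrable (fun y => ‖b y‖ ^ 2) μ) {C a : ℝ}
    (c0 : 0 ≤ C) (a0 : 0 ≤ a) (h : ∀ y, |g y| ≤ C * a * (a + ‖b y‖)) :
    |∫ y, g y ∂μ| ≤ C * (2 * μ.real univ + 1) * a * (a + √(∫ y, ‖b y‖ ^ 2 ∂μ)) := by
  rcases a0.eq_or_lt with rfl | a0
  · simp [show g = 0 from funext fun y => by simpa using h y]
  have q := sq_sqrt (integral_nonneg (μ := μ) fun y => sq_nonneg ‖b y‖)
  have s0 := sqrt_nonneg (∫ y, ‖b y‖ ^ 2 ∂μ)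
  set S := √(∫ y, ‖b y‖ ^ 2 ∂μ)
  have l0 : 0 < a + S := by positivity
  refine (norm_integral_le_of_norm_le (f := g) (((integrable_const (2 * (a + S))).add
    (hb.div_const (a + S))).const_mul (C * a)) (.of_forall fun y => (h y).trans
      (mul_le_mul_of_nonneg_left ?_ (by positivity)))).trans ?_
  · have : ‖b y‖ - (a + S) ≤ ‖b y‖ ^ 2 / (a + S) := by
      rw [le_div_iff₀ l0]; nlinarith [sq_nonneg (‖b y‖ - (a + S)), norm_nonneg (b y)]
    simp only [Pi.add_apply]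
    linarith
  · have : S ^ 2 / (a + S) ≤ a + S := by rw [div_le_iff₀ l0]; nlinarith
    simp only [Pi.add_apply]
    rw [integral_const_mul, integral_add (integrable_const _) (hb.div_const _), integral_const,
      integral_div, ← q, smul_eq_mul]
    nlinarith [mul_le_mul_of_nonneg_left this (mul_nonneg c0 a0.le)]

theorem ph_bd {V : Type*} [NormedAddCommGroup V] [NormedSpace ℝ V] (J : V →L[ℝ] V) {a R : ℝ}
    (ha : |a| ≤ 1) (φ u : V) (h : ‖φ‖ ≤ R) :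
    ‖(cos a • (φ + u) + sin a • J (φ + u) - (φ + u)) - a • J φ‖ ≤
      (1 + ‖J‖) * (1 + R) * |a| * (|a| + ‖u‖) := by
  have a0 := abs_nonneg a
  have a2 : a ^ 2 = |a| * |a| := by rw [← sq, sq_abs]
  have c1 : |cos a - 1| ≤ |a| * |a| := abs_le.2
    ⟨by nlinarith [one_sub_sq_div_two_le_cos (x := a)], by nlinarith [cos_le_one a]⟩
  have c2 : |sin a - a| ≤ |a| * |a| := by
    have := abs_sub_sin_le a
    rw [abs_sub_comm]
    nlinarith [mul_nonneg a0 a0]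
  have R0 := (norm_nonneg _).trans h
  have j := norm_nonneg J
  have u0 := norm_nonneg u
  have e : (cos a • (φ + u) + sin a • J (φ + u) - (φ + u)) - a • J φ =
      (cos a - 1) • φ + (sin a - a) • J φ + ((cos a - 1) • u + sin a • J u) := by
    rw [map_add]; module
  have n1 : ‖(cos a - 1) • φ‖ ≤ |a| * |a| * R := by rw [norm_smul]; gcongr; exact c1
  have n2 : ‖(sin a - a) • J φ‖ ≤ |a| * |a| * (‖J‖ * R) := by
    rw [norm_smul]; gcongr; exacts [c2, J.le_opNorm_of_le h]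
  have n3 : ‖(cos a - 1) • u‖ ≤ |a| * ‖u‖ := by
    rw [norm_smul]; gcongr; exact c1.trans (mul_le_of_le_one_right a0 ha)
  have n4 : ‖sin a • J u‖ ≤ |a| * (‖J‖ * ‖u‖) := by
    rw [norm_smul]; gcongr; exacts [abs_sin_le_abs, J.le_opNorm u]
  rw [e]
  refine (norm_add_le_of_le (norm_add_le_of_le n1 n2) (norm_add_le_of_le n3 n4)).trans ?_
  have := mul_nonneg (mul_nonneg (add_nonneg zero_le_one j) a0) (add_nonneg a0 (mul_nonneg R0 u0))
  nlinarith

section gen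
variable {M ι lam : Type} [Fintype ι] [Fintype lam] {r : ℕ} (c : Cfg M ι lam r)

/-- the action of a map of spinors on variations -/
def c2 : CL c.m.V c.m.V →L[ℝ] Cv c →L[ℝ] Cv c :=
  ContinuousLinearMap.compL ℝ _ _ _ (i2 _ _) ∘L (ContinuousLinearMap.compL ℝ _ _ _).flip fp

/-- the change of a variation -/
def tm (θ : ℝ) : Cv c →L[ℝ] Cv c := c2 c (ph c (0 + θ) - ph c 0)

theorem tm_apply (θ : ℝ) (u : Cv c) :
    tm c θ u = i2 _ _ (cos θ • fp u + sin θ • c.m.J (fp u) - fp u) := by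
  show i2 _ _ ((ph c (0 + θ) - ph c 0) (fp u)) = _
  simp [ph]

theorem rot_eq (θ : M → ℝ) (u : M → Cv c) : rot c θ u - u =
    (fun x => tm c (θ x) (i2 _ _ (c.Φ x))) + fun x => tm c (θ x) (u x) := funext fun x => by
  rw [Pi.add_apply, ← map_add, tm_apply]
  refine ext2 (by simp [rot]) ?_
  simp only [rot, ph, Pi.sub_apply, map_sub, map_add, s2_i1, s2_i2, zero_add, add_apply, smul_apply,
    one_apply_eq_self, sub_sub, smul_add]
  abel

theorem pt_bd {a R R' : ℝ} (ha : |a| ≤ 1) (n u : Cv c) (φ : c.m.V) (h : ‖φ‖ ≤ R) (h' : ‖fp n‖ ≤ R') :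
    |⟪n, tm c a (i2 _ _ φ) + tm c a u⟫_ℝ - ⟪fp n, c.m.J φ⟫_ℝ * a| ≤
      R' * ((1 + ‖c.m.J‖) * (1 + R)) * (1 + ‖(fp : Cv c →L[ℝ] _)‖) * |a| * (|a| + ‖u‖) := by
  have R0 := (norm_nonneg _).trans h
  have R1 := (norm_nonneg _).trans h'
  rw [← map_add, tm_apply, inner2, f2_i2, inner_zero_right, zero_add, s2_i2, mul_comm,
    ← real_inner_smul_right, ← inner_sub_right, map_add, s2_i2]
  refine (abs_real_inner_le_norm _ _).trans ((mul_le_mul h' (ph_bd _ ha _ _ h) (norm_nonneg _)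
    R1).trans ?_)
  have f0 := norm_nonneg (fp : Cv c →L[ℝ] _)
  have : |a| + ‖fp u‖ ≤ (1 + ‖(fp : Cv c →L[ℝ] _)‖) * (|a| + ‖u‖) := by
    nlinarith [fp.le_opNorm u, norm_nonneg u, mul_nonneg f0 (abs_nonneg a)]
  calc _ ≤ R' * ((1 + ‖c.m.J‖) * (1 + R) * |a| * ((1 + ‖(fp : Cv c →L[ℝ] _)‖) * (|a| + ‖u‖))) := by
        gcongr
    _ = _ := by ring

end gen

variable {E3 : Type} [NormedAddCommGroup E3] [NormedSpace ℝ E3] [FiniteDimensional ℝ E3]
  [MeasurableSpace E3] [BorelSpace E3]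
  {H3 : Type} [TopologicalSpace H3] {I3 : ModelWithCorners ℝ E3 H3} [I3.Boundaryless]
  {Y : Type} [TopologicalSpace Y] [ChartedSpace H3 Y] [IsManifold I3 ∞ Y] [T2Space Y]
  [MeasurableSpace Y] [BorelSpace Y] [SecondCountableTopology Y] [CompactSpace Y]
  {κ : Type} [Fintype κ] {lam : Type} [Fintype lam] {D : YD I3 Y κ lam} {β : YC Y κ lam}

theorem UB.app {𝒟 : Type} {c : Cfg (Y × ℝ) (Option κ) lam 0} {F : Pre (IC I3) (Y × ℝ) (Option κ)}
    {w : 𝒟 → Y × ℝ → ℝ} {T : 𝒟 → Y × ℝ → Cv c →L[ℝ] Cv c} {k : ℕ} (h : UB F w k T)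
    (h' : F.Cb c.Φ) : UB F w k fun d x => T d x (i2 _ _ (c.Φ x)) := by
  have a : UB (𝒟 := 𝒟) F 1 k fun _ => c.Φ := Bk.of_Cb h'
  have b := Bk.appL h (UB.cl (i2 (Fm (Option κ) (HS (Fin c.m.N))) _) a)
  exact b

theorem row_bd (hβ : D.Adm β) {n : Y → Cv (cy β)} {ν : ℝ} (hn : Rw D β n ν) : ∃ K ≥ 0,
    ∀ (θ : Y × ℝ → ℝ) (u : Y × ℝ → Cv (cy β)) (s a : ℝ), |a| ≤ 1 → (∀ y, θ (y, s) = a) →
      Continuous u →
      |row D n (rot (cy β) θ u) s - row D n u s - ν * a| ≤ K * |a| * (|a| + sl D u s) := by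
  have := D.F.fin
  have cΦ := hβ.adm.sm.continuous
  have cn := hn.sm.continuous
  obtain ⟨R, hR⟩ := isCompact_univ.exists_bound_of_continuousOn
    (sm_slice_fst hβ.adm.sm 0).continuous.continuousOn
  obtain ⟨R', hR'⟩ := isCompact_univ.exists_bound_of_continuousOn (fp.continuous.comp cn).continuousOn
  have i : ∀ {g : Y → ℝ}, Continuous g → Integrable g D.F.μ := fun h =>
    h.integrable_of_hasCompactSupport (.of_compactSpace _)
  have p : 0 ≤ |R'| * ((1 + ‖(cy β).m.J‖) * (1 + |R|)) * (1 + ‖(fp : Cv (cy β) →L[ℝ] _)‖) := by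
    positivity
  refine ⟨_, mul_nonneg p (by positivity : 0 ≤ 2 * D.F.μ.real univ + 1), fun θ u s a ha e cu => ?_⟩
  have e1 : ∀ y, rot (cy β) θ u (y, s) = tm (cy β) a (i2 _ _ ((cy β).Φ (y, s))) +
      tm (cy β) a (u (y, s)) + u (y, s) := fun y => by
    rw [← e y]
    exact sub_eq_iff_eq_add.1 (congrFun (rot_eq _ θ u) (y, s))
  have e2 : ∫ y, ⟪fp (n y), (cy β).m.J ((cy β).Φ (y, s))⟫_ℝ ∂D.F.μ = ν := hn.J
  have cs : Continuous fun y => (cy β).Φ (y, s) := cΦ.comp (.prodMk_left s)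
  have cv : Continuous fun y => u (y, s) := cu.comp (.prodMk_left s)
  have ct := (tm (cy β) a).continuous
  have i1 : Integrable (fun y => ⟪n y, tm (cy β) a (i2 _ _ ((cy β).Φ (y, s))) +
      tm (cy β) a (u (y, s))⟫_ℝ) D.F.μ := i (cn.inner (𝕜 := ℝ) ((ct.comp ((i2 _ _).continuous.comp cs)).add (ct.comp cv)))
  have i3 := i (((fp.continuous.comp cn).inner (𝕜 := ℝ) ((cy β).m.J.continuous.comp cs)).mul_const a)
  simp only [row, e1, inner_add_right _ (_ + _)]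
  rw [integral_add i1 (i (cn.inner (𝕜 := ℝ) cv)), add_sub_cancel_right, ← e2,
    ← integral_mul_const]
  refine ((congrArg _ (integral_sub i1 i3)).ge).trans ?_
  exact int_bd (b := fun y => u (y, s)) (i (cv.norm.pow 2)) p (abs_nonneg a) fun y =>
    pt_bd _ ha _ _ ((cy β).Φ (y, s)) ((hR y trivial).trans (le_abs_self _))
      ((hR' y trivial).trans (le_abs_self _))

/-- the parameters of `Tr2Stmt` -/
structure P2' (D : YD I3 Y κ lam) (δ : ℝ) (Dd : ℕ → ℝ) (A : ℝ) where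
  (L p q a d : ℝ)
  ψ : ℝ → ℝ
  hL : 1 ≤ L
  pq : p ≤ q
  a1 : |a| ≤ 1
  wd : Wd D.Z.toPre (fun x => ψ x.2) d Dd
  tn : ∀ t, δ * tent L p q t ≤ ψ t ∧ ψ t ≤ δ * tent L p q t + A

variable {δ A : ℝ} {Dd : ℕ → ℝ}

theorem ub_tm (β : YC Y κ lam) (k : ℕ) : UB (cylP D.F.toPre) (fun (d : P2' D δ Dd A) _ => |d.a|) k
    fun d x => tm (cy β) (ret d.L d.p d.q x.2 * d.a) := by
  have a : UB (cylP D.F.toPre) (fun (d : P2' D δ Dd A) _ => |d.a|) k
      fun d x => ret d.L d.p d.q x.2 * d.a :=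
    ((ub_up fun d => d.hL).smulR (ub_dn fun d => d.hL)).smulR (UB.cst _)
  exact UB.cl _ (CS.ph_sub ⟨ub_const (cos 0), ub_const (sin 0)⟩ (a.wt' 1 (fun _ _ => zero_le_one)
    fun d _ => by simpa using d.a1) a)

theorem tm_zero (d : P2' D δ Dd A) (x : Y × ℝ) (hx : x.2 ∉ Icc (d.p - d.L) (d.q + d.L)) :
    tm (cy β) (ret d.L d.p d.q x.2 * d.a) (i2 _ _ ((cy β).Φ x)) = 0 := by
  simp [tm_apply, ret_zero d.hL hx]

theorem ub_tΦ (hβ : D.Adm β) (k : ℕ) : UB (cylP D.F.toPre) (fun (d : P2' D δ Dd A) _ => |d.a|) k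
    fun d x => tm (cy β) (ret d.L d.p d.q x.2 * d.a) (i2 _ _ ((cy β).Φ x)) :=
  UB.app (ub_tm β k) (cb_Φ hβ)

theorem nw_tΦ (hβ : D.Adm β) (δ0 : 0 < δ) (k : ℕ) : ∃ K ≥ 0, ∀ d : P2' D δ Dd A,
    nw D.Z.toPre k (fun x => d.ψ x.2)
      (fun x => tm (cy β) (ret d.L d.p d.q x.2 * d.a) (i2 _ _ ((cy β).Φ x))) ≤
        K * exp (d.ψ ((d.p + d.q) / 2) + A) * |d.a| :=
  nw_cut (s := fun d => (d.p + d.q) / 2) δ0 (ub_tΦ hβ k) P2'.wd (fun _ => abs_nonneg _) tm_zero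
    fun d t ht => by
      have a : tent d.L d.p d.q t + |t - (d.p + d.q) / 2| ≤ tent d.L d.p d.q ((d.p + d.q) / 2) := by
        have := ht.1; have := ht.2; have := d.pq; have := d.hL
        simp only [tent, max_def, min_def, abs_eq_max_neg]
        split_ifs <;> linarith
      nlinarith [(d.tn t).2, (d.tn ((d.p + d.q) / 2)).1]

theorem tr2 : Tr2Stmt I3 Y κ lam := by
  intro D β _ hβ n ν hn δ δ0 k Dd A
  obtain ⟨K0, k0, h0⟩ := row_bd hβ hn
  obtain ⟨K1, k1, h1⟩ := nw_tΦ (A := A) (Dd := Dd) hβ δ0 k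
  choose K2 k2 h2 using ub_tm (D := D) (δ := δ) (A := A) (Dd := Dd) β
  have c := cK_nonneg (ι := Option κ) k
  have := k2 k
  refine ⟨K0 + 2 * (K1 * exp A + cK (Option κ) k * K2 k), by positivity,
    fun L p q a d ψ u a1 a2 a3 a4 a5 hu => ?_⟩
  let P : P2' D δ Dd A := ⟨L, p, q, a, d, ψ, a1, a2, a3, a4, a5⟩
  have s : Sm (IC I3) fun x : Y × ℝ => tm (cy β) (ret L p q x.2 * a) := (ub_tm β 0).sm P
  have cb : ∀ j, D.Z.CB j (fun x : Y × ℝ => tm (cy β) (ret L p q x.2 * a)) (K2 j * |a|) :=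
    fun j => CB_of_PB fun x => (eventually_top.1 (h2 j) P x trivial).2.2
  have f1 : Fl D.Z.toPre fun x => tm (cy β) (ret L p q x.2 * a) (i2 _ _ ((cy β).Φ x)) :=
    fl_cut ((ub_tΦ hβ 0).sm P) (tm_zero P)
  have f2 := hu.fl.app ⟨_, s, cb⟩
  have a0 := abs_nonneg a
  refine ⟨⟨?_, tg_rot hβ.adm _ hu.tg⟩, ?_, (h0 _ u _ a a3 (fun y => ?_) hu.fl.sm.continuous).trans ?_⟩
  · rw [sub_eq_iff_eq_add.1 (rot_eq _ _ u)]
    exact (f1.add f2).add hu.fl
  · have b1 : _ ≤ K1 * exp (ψ ((p + q) / 2) + A) * |a| := h1 P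
    have b2 := nw_app a4 s (cb k) hu.fl
    have b3 := nrm_add2 (a4.fl f1) (a4.fl f2) k
    have n0 := nw_nonneg (F := D.Z) (ψ := fun x => ψ x.2) k u
    have e0 := (exp_pos (ψ ((p + q) / 2))).le
    rw [abs_of_nonneg (by positivity)] at b2
    rw [exp_add] at b1
    rw [rot_eq]
    refine ((le_of_eq (congrArg _ (funext fun x => smul_add _ _ _))).trans
      (b3.trans (mul_le_mul_of_nonneg_left (add_le_add b1 b2) zero_le_two))).trans ?_
    have := mul_nonneg (mul_nonneg k0 a0) (add_nonneg e0 n0)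
    have := mul_nonneg (mul_nonneg (mul_nonneg k1 (exp_pos A).le) a0) n0
    have := mul_nonneg (mul_nonneg (mul_nonneg c (k2 k)) a0) e0
    nlinarith
  · rw [ret, up_one (by linarith) (by linarith), dn_one (by linarith) (by linarith), one_mul, one_mul]
  · gcongr
    · exact add_nonneg a0 (sqrt_nonneg _)
    · exact le_add_of_nonneg_right (by positivity)

end Crest.Agent.X212.Tr6
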